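import Vale.Agent.P050Z.Rigid

/-! The Fourier symbol of the typed kernels as a function of the six ranks. -/

namespace Vale.Agent.P050Z

open Finset

/-- symbol of the unsigned factor of channel `i` on the path `p` -/
def alZ (p i : Fin 6) (r : ℕ) : ℤ :=
  if i = opp p then (if r = 0 then 1 else 0)
  else if i = p then (if r = 0 then 1 else 0) + (if Even r then 1 else 0)
  else (if Even r then 1 else 0)

/-- symbol of the signed factor of channel `i` on the path `p` -/
def beZ (p i : Fin 6) (r : ℕ) : ℤ :=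
  if i = opp p then (if r = 0 then 1 else 0)
  else if i = p then (if Even r then 1 else 0) - (if r = 0 then 1 else 0)
  else (if Even r then 0 else 1)

/-- the sign of an edge: negative on exactly one edge -/
def sg (k : Fin 24) : ℝ := if k = 0 then -1 else 1

/-- the symbol of the kernel of a pair of types -/
noncomputable def kap (ε : ℝ) : Option (Fin 24) → (Fin 6 → ℕ) → ℝ
  | none, r => ∏ i, if r i = 0 then 1 else 0
  | some k, r => (1 - ε ^ ecost k) * ∏ i, (if r i = 0 then 1 else 0) +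
      (ε ^ ecost k / 2) * ∏ i, (alZ (pth k) i (r i) : ℝ) +
      (ε ^ ecost k * sg k / 2) * ∏ i, (beZ (pth k) i (r i) : ℝ)

/-- the activity of a pair of types -/
noncomputable def act (ε : ℝ) : Option (Fin 24) → ℝ
  | none => 0
  | some k => ε ^ ecost k

/-- rank vectors at which the symbol of every edge of the path `p` vanishes -/
def Dead (p : Fin 6) (r : Fin 6 → ℕ) : Prop :=
  (∃ i, r i ≠ 0) ∧ (∃ i, alZ p i (r i) = 0) ∧ (∃ i, beZ p i (r i) = 0)

instance (p : Fin 6) (r : Fin 6 → ℕ) : Decidable (Dead p r) := by unfold Dead; infer_instance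

/-- the rank vector of the surviving term on the path `p` -/
def fullR (p i : Fin 6) : ℕ := if i = opp p then 0 else if i = p then 2 else 1

theorem opp_ne : ∀ p, p ≠ opp p := by decide

theorem opp_opp : ∀ p, opp (opp p) = p := by decide

theorem abs_sg (k : Fin 24) : |sg k| = 1 := by
  unfold sg
  split_ifs <;> simp

theorem prod_ind_zero {r : Fin 6 → ℕ} (h : ∃ i, r i ≠ 0) :
    (∏ i, if r i = 0 then (1 : ℝ) else 0) = 0 := by
  obtain ⟨i, hi⟩ := h
  exact Finset.prod_eq_zero (mem_univ i) (if_neg hi)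

theorem prod_alZ_zero : ∀ p, ∏ i, alZ p i 0 = 2 := by decide

theorem prod_beZ_zero : ∀ p, ∏ i, beZ p i 0 = 0 := by decide

theorem prod_alZ_full : ∀ p, ∏ i, alZ p i (fullR p i) = 0 := by decide

theorem prod_beZ_full : ∀ p, ∏ i, beZ p i (fullR p i) = 1 := by decide

theorem kap_zero (ε : ℝ) (o : Option (Fin 24)) {r : Fin 6 → ℕ} (h : ∀ i, r i = 0) :
    kap ε o r = 1 := by
  cases o with
  | none => simp [kap, h]
  | some k =>
    have h1 : (∏ i, (alZ (pth k) i (r i) : ℝ)) = 2 := by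
      simp_rw [h]
      exact_mod_cast prod_alZ_zero (pth k)
    have h2 : (∏ i, (beZ (pth k) i (r i) : ℝ)) = 0 := by
      simp_rw [h]
      exact_mod_cast prod_beZ_zero (pth k)
    simp only [kap, h1, h2]
    simp only [h, if_true, Finset.prod_const_one]
    ring

theorem kap_full (ε : ℝ) (k : Fin 24) {r : Fin 6 → ℕ} (h : ∀ i, r i = fullR (pth k) i) :
    kap ε (some k) r = ε ^ ecost k * sg k / 2 := by
  have h1 : (∏ i, (alZ (pth k) i (r i) : ℝ)) = 0 := by
    simp_rw [h]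
    exact_mod_cast prod_alZ_full (pth k)
  have h2 : (∏ i, (beZ (pth k) i (r i) : ℝ)) = 1 := by
    simp_rw [h]
    exact_mod_cast prod_beZ_full (pth k)
  have h3 : (∏ i, if r i = 0 then (1 : ℝ) else 0) = 0 := by
    refine prod_ind_zero ⟨pth k, ?_⟩
    rw [h, fullR, if_neg (opp_ne _), if_pos rfl]
    norm_num
  simp only [kap, h1, h2, h3]
  ring

theorem kap_dead (ε : ℝ) (k : Fin 24) {r : Fin 6 → ℕ} (h : Dead (pth k) r) :
    kap ε (some k) r = 0 := by
  obtain ⟨h0, ⟨i, hi⟩, ⟨j, hj⟩⟩ := h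
  have h1 : (∏ i, (alZ (pth k) i (r i) : ℝ)) = 0 :=
    Finset.prod_eq_zero (mem_univ i) (by exact_mod_cast hi)
  have h2 : (∏ i, (beZ (pth k) i (r i) : ℝ)) = 0 :=
    Finset.prod_eq_zero (mem_univ j) (by exact_mod_cast hj)
  simp only [kap, h1, h2, prod_ind_zero h0]
  ring

theorem dead_of_opp {p : Fin 6} {r : Fin 6 → ℕ} (h : r (opp p) ≠ 0) : Dead p r :=
  ⟨⟨_, h⟩, ⟨opp p, by simp [alZ, h]⟩, ⟨opp p, by simp [beZ, h]⟩⟩

theorem dead_of_le_one {p : Fin 6} {r : Fin 6 → ℕ} (h0 : ∃ i, r i ≠ 0) (h1 : ∀ i, r i ≤ 1) :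
    Dead p r := by
  refine ⟨h0, ?_, ⟨p, ?_⟩⟩
  · obtain ⟨i, hi⟩ := h0
    have h2 : r i = 1 := by have := h1 i; omega
    refine ⟨i, ?_⟩
    rw [h2]
    unfold alZ
    split_ifs <;> simp_all
  · have h2 : r p = 0 ∨ r p = 1 := by have := h1 p; omega
    unfold beZ
    rw [if_neg (opp_ne p), if_pos rfl]
    rcases h2 with h2 | h2 <;> simp [h2]

theorem kap_of_le_one (ε : ℝ) (o : Option (Fin 24)) {r : Fin 6 → ℕ} (h0 : ∃ i, r i ≠ 0)
    (h1 : ∀ i, r i ≤ 1) : kap ε o r = 0 := by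
  cases o with
  | none => exact prod_ind_zero h0
  | some k => exact kap_dead ε k (dead_of_le_one h0 h1)

theorem abs_prod_le_at (f : Fin 6 → ℝ) (p : Fin 6) (h : ∀ i, i ≠ p → |f i| ≤ 1) :
    |∏ i, f i| ≤ |f p| := by
  rw [← Finset.mul_prod_erase univ f (mem_univ p), abs_mul, Finset.abs_prod]
  refine mul_le_of_le_one_right (abs_nonneg _) ?_
  exact Finset.prod_le_one (fun i _ => abs_nonneg _) fun i hi => h i (Finset.ne_of_mem_erase hi)

theorem abs_al_add_be (p : Fin 6) (r : Fin 6 → ℕ) :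
    |∏ i, (alZ p i (r i) : ℝ)| + |∏ i, (beZ p i (r i) : ℝ)| ≤ 2 := by
  have h1 := abs_prod_le_at (fun i => (alZ p i (r i) : ℝ)) p fun i hi => by
    unfold alZ
    rw [if_neg hi]
    split_ifs <;> simp
  have h2 := abs_prod_le_at (fun i => (beZ p i (r i) : ℝ)) p fun i hi => by
    unfold beZ
    rw [if_neg hi]
    split_ifs <;> simp
  have h3 : |(alZ p p (r p) : ℝ)| + |(beZ p p (r p) : ℝ)| ≤ 2 := by
    unfold alZ beZ
    rw [if_neg (opp_ne p), if_pos rfl, if_neg (opp_ne p), if_pos rfl]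
    by_cases h0 : r p = 0
    · simp [h0]
    · by_cases he : Even (r p)
      · simp [h0, he]
        norm_num
      · simp [h0, he]
  linarith

theorem act_nonneg {ε : ℝ} (h0 : 0 ≤ ε) (o : Option (Fin 24)) : 0 ≤ act ε o := by
  cases o with
  | none => exact le_rfl
  | some k => exact pow_nonneg h0 _

theorem act_le_one {ε : ℝ} (h0 : 0 ≤ ε) (h1 : ε ≤ 1) (o : Option (Fin 24)) : act ε o ≤ 1 := by
  cases o with
  | none => exact zero_le_one
  | some k => exact pow_le_one₀ h0 h1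

theorem abs_kap_le_act {ε : ℝ} (h0 : 0 ≤ ε) (o : Option (Fin 24)) {r : Fin 6 → ℕ}
    (h : ∃ i, r i ≠ 0) : |kap ε o r| ≤ act ε o := by
  cases o with
  | none => simp only [kap, act, prod_ind_zero h, abs_zero, le_refl]
  | some k =>
    have ha : 0 ≤ ε ^ ecost k := pow_nonneg h0 _
    have h2 := abs_al_add_be (pth k) r
    simp only [kap, act, prod_ind_zero h, mul_zero, zero_add]
    refine (abs_add_le _ _).trans ?_
    rw [abs_mul, abs_mul, abs_div, abs_div, abs_mul, abs_sg, abs_of_nonneg ha, abs_two]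
    nlinarith

theorem abs_kap_le_one {ε : ℝ} (h0 : 0 ≤ ε) (h1 : ε ≤ 1) (o : Option (Fin 24)) (r : Fin 6 → ℕ) :
    |kap ε o r| ≤ 1 := by
  by_cases h : ∀ i, r i = 0
  · rw [kap_zero ε o h, abs_one]
  · push Not at h
    exact (abs_kap_le_act h0 o h).trans (act_le_one h0 h1 o)

theorem prod_sg_aut (a : Fin 4) : ∏ e, sg (autE a e) = -1 := by
  rw [(autE_bijective a).prod_comp sg]
  rw [← Finset.mul_prod_erase univ sg (mem_univ 0)]
  rw [Finset.prod_eq_one fun k hk => by rw [sg, if_neg (Finset.ne_of_mem_erase hk)]]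
  simp [sg]

/-- a main pattern with a nonzero bit has a path on which it is nonzero, and on that path every
main pattern with the same index is at most one -/
theorem main_side : ∀ (j : Fin 6) (a b : Fin 2), (∃ p, pat j a b p ≠ 0) →
    ∃ p, pat j a b p ≠ 0 ∧ ∀ a' b' : Fin 2, pat j a' b' p ≤ 1 := by decide

theorem pat_full : ∀ (a : Fin 4) (p i : Fin 6), pat (autP a i) 1 1 p = fullR (autP a p) i := by
  decide

theorem opp_autP : ∀ (a : Fin 4) (i : Fin 6), opp (autP a (opp (autP a i))) = i := by decide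

theorem pth_surj : ∀ p, ∃ e, pth e = p := by decide

theorem bit_half : ∀ (a : Fin 4) (i : Fin 6) (x y : Fin 2), x ≠ y →
    alZ (autP a (autP a i)) i (pat (autP a i) x y (autP a i)) = 0 ∧
    beZ (autP a (autP a i)) i (pat (autP a i) x y (autP a i)) = 0 ∧
    pat (autP a i) x y (autP a i) ≠ 0 := by decide

theorem bit_diag : ∀ (a : Fin 4) (x : Fin 6 → Fin 2),
    (∀ i, x i = 0) ∨ (∀ i, x i = 1) ∨
      ∃ p, Dead (autP a p) fun i => pat (autP a i) (x i) (x i) p := by
  decide +kernel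

/-- the check of the bits -/
theorem bit_check (a : Fin 4) (x y : Fin 6 → Fin 2) :
    (∀ i, x i = 0 ∧ y i = 0) ∨ (∀ i, x i = 1 ∧ y i = 1) ∨
      ∃ p, Dead (autP a p) fun i => pat (autP a i) (x i) (y i) p := by
  by_cases h : ∀ i, x i = y i
  · have hxy : x = y := funext h
    subst hxy
    rcases bit_diag a x with h0 | h1 | h2
    · exact Or.inl fun i => ⟨h0 i, h0 i⟩
    · exact Or.inr (Or.inl fun i => ⟨h1 i, h1 i⟩)
    · exact Or.inr (Or.inr h2)
  · push Not at h
    obtain ⟨i, hi⟩ := h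
    obtain ⟨h1, h2, h3⟩ := bit_half a i (x i) (y i) hi
    exact Or.inr (Or.inr ⟨autP a i, ⟨i, h3⟩, ⟨i, h1⟩, ⟨i, h2⟩⟩)

theorem not_bad {j : Fin 6} {r : Fin 6 → ℕ} (h0 : r (opp j) = 0) (h : ¬ Bad j r) :
    ∃ a b : Fin 2, r = pat j a b := by
  unfold Bad at h
  by_cases h1 : r = pat j 0 0
  · exact ⟨0, 0, h1⟩
  by_cases h2 : r = pat j 1 0
  · exact ⟨1, 0, h2⟩
  by_cases h3 : r = pat j 0 1
  · exact ⟨0, 1, h3⟩
  by_cases h4 : r = pat j 1 1
  · exact ⟨1, 1, h4⟩
  exact absurd ⟨h0, h1, h2, h3, h4⟩ h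

theorem pat_zero : ∀ j p, pat j 0 0 p = 0 := by decide

theorem pat_one_ne : ∀ j, pat j 1 1 j ≠ 0 := by decide

theorem prod_pth (f : Fin 6 → ℝ) : ∏ e, f (pth e) = ∏ p, f p ^ len p := by
  simp only [Fin.prod_univ_succ, Fin.prod_univ_zero, pth, len]
  simp
  ring

end Vale.Agent.P050Z
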