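import Vale.Agent.P050Z.Defs

/-! The density of the graph in translation invariant kernels as a sum over functions on faces. -/

namespace Vale.Agent.P050Z

open Finset

variable {D P : Type} [AddCommGroup D] [Fintype D] [AddCommGroup P] [Fintype P]

theorem IsPairing.pi {χ : D → P → ℂ} (h : IsPairing χ) :
    IsPairing fun (a : Fin 6 → D) (y : Fin 6 → P) => ∏ i, χ (a i) (y i) := by
  refine ⟨?_, ?_, ?_, ?_, ?_, ?_⟩
  · simp [h.card_eq]
  · intro a b y
    simp only [Pi.add_apply, h.chi_add_left, Finset.prod_mul_distrib]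
  · intro a y z
    simp only [Pi.add_apply, h.chi_add_right, Finset.prod_mul_distrib]
  · intro y
    simp only [Pi.zero_apply, h.chi_zero_left, Finset.prod_const_one]
  · intro a
    simp only [Pi.zero_apply, h.chi_zero_right, Finset.prod_const_one]
  · intro y hy
    obtain ⟨i, hi⟩ : ∃ i, y i ≠ 0 := by
      by_contra hc
      push Not at hc
      exact hy (funext hc)
    have e : ∑ a : Fin 6 → D, ∏ i, χ (a i) (y i) = ∏ i, ∑ b : D, χ b (y i) := by
      rw [Finset.prod_univ_sum]
      simp only [Fintype.piFinset_univ]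
    rw [e]
    exact Finset.prod_eq_zero (Finset.mem_univ i) (h.orth _ hi)

omit [Fintype D] [Fintype P] in
/-- the signed sum of a function on the edges along the boundary of a face -/
def faceSum (y : Fin 24 → P) (A : Fin 4) : P :=
  ∑ e, ((if lft (pth e) = A then y e else 0) + (if rgt (pth e) = A then -y e else 0))

theorem IsPairing.chi_neg {χ : D → P → ℂ} (h : IsPairing χ) (b : D) (y : P) :
    χ (-b) y = χ b (-y) := by
  have h1 : χ b y * χ (-b) y = 1 := by
    rw [← h.chi_add_left, add_neg_cancel, h.chi_zero_left]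
  have h2 : χ b y * χ b (-y) = 1 := by
    rw [← h.chi_add_right, add_neg_cancel, h.chi_zero_right]
  calc χ (-b) y = χ (-b) y * (χ b y * χ b (-y)) := by rw [h2, mul_one]
    _ = (χ b y * χ (-b) y) * χ b (-y) := by ring
    _ = χ b (-y) := by rw [h1, one_mul]

theorem IsPairing.chi_sum {χ : D → P → ℂ} (h : IsPairing χ) {ι : Type} (s : Finset ι) (a : D)
    (f : ι → P) : χ a (∑ i ∈ s, f i) = ∏ i ∈ s, χ a (f i) := by
  classical
  induction s using Finset.induction_on with
  | empty => simp [h.chi_zero_right]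
  | insert i s hi ih => rw [Finset.sum_insert hi, Finset.prod_insert hi, h.chi_add_right, ih]

theorem IsPairing.prod_face {χ : D → P → ℂ} (h : IsPairing χ) (Z : Fin 4 → D)
    (y : Fin 24 → P) : ∏ e, χ (dif Z (pth e)) (y e) = ∏ A, χ (Z A) (faceSum y A) := by
  have e1 : ∀ A, χ (Z A) (faceSum y A) =
      ∏ e, ((if lft (pth e) = A then χ (Z A) (y e) else 1) *
        (if rgt (pth e) = A then χ (Z A) (-y e) else 1)) := by
    intro A
    unfold faceSum
    rw [h.chi_sum]
    refine Finset.prod_congr rfl fun e _ => ?_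
    rw [h.chi_add_right]
    congr 1
    · split_ifs
      · rfl
      · exact h.chi_zero_right _
    · split_ifs
      · rfl
      · exact h.chi_zero_right _
  simp only [e1]
  rw [Finset.prod_comm]
  refine Finset.prod_congr rfl fun e _ => ?_
  rw [Finset.prod_mul_distrib, Finset.prod_ite_eq, Finset.prod_ite_eq]
  simp only [Finset.mem_univ, if_true]
  unfold dif
  rw [sub_eq_add_neg, h.chi_add_left, h.chi_neg]

theorem IsPairing.sum_face {χ : D → P → ℂ} (h : IsPairing χ) [DecidableEq P] (y : Fin 24 → P) :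
    ∑ Z : Fin 4 → D, ∏ e, χ (dif Z (pth e)) (y e) =
      if (∀ A, faceSum y A = 0) then (Fintype.card P : ℂ) ^ 4 else 0 := by
  simp only [h.prod_face]
  have e : ∑ Z : Fin 4 → D, ∏ A, χ (Z A) (faceSum y A) = ∏ A, ∑ b : D, χ b (faceSum y A) := by
    rw [Finset.prod_univ_sum]
    simp only [Fintype.piFinset_univ]
  rw [e]
  split_ifs with hA
  · simp only [hA, h.chi_zero_right, Finset.sum_const, Finset.card_univ, nsmul_eq_mul, mul_one,
      Finset.prod_const, Fintype.card_fin, h.card_eq]
  · push Not at hA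
    obtain ⟨A, hA⟩ := hA
    exact Finset.prod_eq_zero (Finset.mem_univ A) (h.orth _ hA)

omit [Fintype P] in
/-- the potential with a given value at the vertex `0` and given differences along a tree -/
def pot (c : P) (y : Fin 24 → P) : Fin 22 → P :=
  ![c, c - (y 0 + y 1 + y 2), c - (y 6 + y 7 + y 8 + y 9), c - (y 14 + y 15 + y 16 + y 17 + y 18),
    c - y 0, c - (y 0 + y 1),
    c - (y 6 + y 7 + y 8 + y 9 + y 3), c - (y 6 + y 7 + y 8 + y 9 + y 3 + y 4),
    c - y 6, c - (y 6 + y 7), c - (y 6 + y 7 + y 8),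
    c - (y 0 + y 1 + y 2 + y 10), c - (y 0 + y 1 + y 2 + y 10 + y 11),
    c - (y 0 + y 1 + y 2 + y 10 + y 11 + y 12),
    c - y 14, c - (y 14 + y 15), c - (y 14 + y 15 + y 16), c - (y 14 + y 15 + y 16 + y 17),
    c - (y 0 + y 1 + y 2 + y 19), c - (y 0 + y 1 + y 2 + y 19 + y 20),
    c - (y 0 + y 1 + y 2 + y 19 + y 20 + y 21),
    c - (y 0 + y 1 + y 2 + y 19 + y 20 + y 21 + y 22)]

omit [Fintype P] in
theorem faceSum_one (y : Fin 24 → P) : faceSum y 1 =
    y 14 + y 15 + y 16 + y 17 + y 18 - (y 3 + y 4 + y 5) - (y 6 + y 7 + y 8 + y 9) := by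
  simp [faceSum, Fin.sum_univ_succ, lft, rgt, pth]
  abel

omit [Fintype P] in
theorem faceSum_two (y : Fin 24 → P) : faceSum y 2 =
    y 0 + y 1 + y 2 + (y 10 + y 11 + y 12 + y 13) - (y 14 + y 15 + y 16 + y 17 + y 18) := by
  simp [faceSum, Fin.sum_univ_succ, lft, rgt, pth]
  abel

omit [Fintype P] in
theorem faceSum_three (y : Fin 24 → P) : faceSum y 3 =
    y 6 + y 7 + y 8 + y 9 - (y 0 + y 1 + y 2) - (y 19 + y 20 + y 21 + y 22 + y 23) := by
  simp [faceSum, Fin.sum_univ_succ, lft, rgt, pth]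
  abel

omit [Fintype P] in
theorem faceSum_zero (y : Fin 24 → P) : faceSum y 0 =
    y 3 + y 4 + y 5 + (y 19 + y 20 + y 21 + y 22 + y 23) - (y 10 + y 11 + y 12 + y 13) := by
  simp [faceSum, Fin.sum_univ_succ, lft, rgt, pth]
  abel

omit [Fintype P] in
theorem faceSum_grad (x : Fin 22 → P) (A : Fin 4) :
    faceSum (fun e => x (src e) - x (tgt e)) A = 0 := by
  fin_cases A
  · show faceSum _ 0 = 0
    rw [faceSum_zero]; simp [src, tgt]
  · show faceSum _ 1 = 0
    rw [faceSum_one]; simp [src, tgt]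
  · show faceSum _ 2 = 0
    rw [faceSum_two]; simp [src, tgt]
  · show faceSum _ 3 = 0
    rw [faceSum_three]; simp [src, tgt]

omit [Fintype P] in
theorem pot_grad (x : Fin 22 → P) : pot (x 0) (fun e => x (src e) - x (tgt e)) = x := by
  funext v
  fin_cases v <;> simp [pot, src, tgt]

omit [Fintype P] in
theorem grad_pot (c : P) (y : Fin 24 → P) (hy : ∀ A, faceSum y A = 0) :
    (fun e => pot c y (src e) - pot c y (tgt e)) = y := by
  have h1 := hy 1
  have h2 := hy 2
  have h3 := hy 3
  rw [faceSum_one] at h1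
  rw [faceSum_two] at h2
  rw [faceSum_three] at h3
  funext e
  fin_cases e <;> simp [pot, src, tgt]
  · linear_combination (norm := abel1) h1
  · linear_combination (norm := abel1) -h2
  · linear_combination (norm := abel1) h3

theorem sum_grad [DecidableEq P] (f : (Fin 24 → P) → ℂ) :
    ∑ x : Fin 22 → P, f (fun e => x (src e) - x (tgt e)) =
      (Fintype.card P : ℂ) * ∑ y : Fin 24 → P, if (∀ A, faceSum y A = 0) then f y else 0 := by
  have e1 : (Fintype.card P : ℂ) * ∑ y : Fin 24 → P, (if (∀ A, faceSum y A = 0) then f y else 0) =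
      ∑ p ∈ (Finset.univ : Finset P) ×ˢ
        (Finset.univ.filter fun y : Fin 24 → P => ∀ A, faceSum y A = 0), f p.2 := by
    rw [Finset.sum_product]
    simp only [Finset.sum_const, Finset.card_univ, nsmul_eq_mul, Finset.sum_filter]
  rw [e1]
  refine Finset.sum_nbij' (fun x => (x 0, fun e => x (src e) - x (tgt e)))
    (fun p => pot p.1 p.2) ?_ ?_ ?_ ?_ ?_
  · intro x _
    simp only [Finset.mem_product, Finset.mem_univ, Finset.mem_filter, true_and]
    exact faceSum_grad x
  · intro p _
    exact Finset.mem_univ _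
  · intro x _
    exact pot_grad x
  · intro p hp
    simp only [Finset.mem_product, Finset.mem_univ, Finset.mem_filter, true_and] at hp
    refine Prod.ext ?_ (grad_pot p.1 p.2 hp)
    simp [pot]
  · intro x _
    rfl

theorem fourier_identity {χ : D → P → ℂ} (h : IsPairing χ) (W : Fin 24 → P → ℂ) :
    (∑ x : Fin 22 → P, ∏ e, W e (x (src e) - x (tgt e))) * (Fintype.card P : ℂ) ^ 3 =
      ∑ Z : Fin 4 → D, ∏ e, ∑ y, W e y * χ (dif Z (pth e)) y := by
  classical
  have e1 : ∀ Z : Fin 4 → D, ∏ e, ∑ y, W e y * χ (dif Z (pth e)) y =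
      ∑ y : Fin 24 → P, (∏ e, W e (y e)) * ∏ e, χ (dif Z (pth e)) (y e) := by
    intro Z
    rw [Finset.prod_univ_sum]
    simp only [Fintype.piFinset_univ, Finset.prod_mul_distrib]
  simp only [e1]
  rw [Finset.sum_comm]
  simp only [← Finset.mul_sum, h.sum_face]
  rw [sum_grad (fun y => ∏ e, W e (y e)), mul_comm, ← mul_assoc, Finset.mul_sum]
  refine Finset.sum_congr rfl fun y _ => ?_
  split_ifs
  · ring
  · simp

end Vale.Agent.P050Z
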