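import Vale.Agent.P050Z.Asm1
import Vale.Agent.P050Z.Fourier

/-! The typed kernels, their positivity and their Fourier transforms. -/

namespace Vale.Agent.P050Z

open Finset

variable {D P : Type} [AddCommGroup D] [Fintype D] [AddCommGroup P] [Fintype P]

/-- the unsigned factor of channel `i` on the path `p` -/
def kerA (g : P → ℝ) (p i : Fin 6) (y : P) : ℝ :=
  if i = opp p then 1 else if i = p then 1 + g y else g y

/-- the signed factor of channel `i` on the path `p` -/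
def kerB (g s : P → ℝ) (p i : Fin 6) (y : P) : ℝ :=
  if i = opp p then 1 else if i = p then g y - 1 else s y

/-- the kernel of a pair of types -/
noncomputable def ker (ε : ℝ) (g s : P → ℝ) : Option (Fin 24) → (Fin 6 → P) → ℝ
  | none, _ => 1
  | some k, y => (1 - ε ^ ecost k) + (ε ^ ecost k / 2) * ∏ i, kerA g (pth k) i (y i) +
      (ε ^ ecost k * sg k / 2) * ∏ i, kerB g s (pth k) i (y i)

omit [Fintype P] in
theorem ker_neg (ε : ℝ) {g s : P → ℝ} (hg : ∀ y, g (-y) = g y) (hs : ∀ y, s (-y) = s y)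
    (o : Option (Fin 24)) (y : Fin 6 → P) : ker ε g s o (-y) = ker ε g s o y := by
  cases o with
  | none => rfl
  | some k => simp only [ker, kerA, kerB, Pi.neg_apply, hg, hs]

omit [AddCommGroup P] [Fintype P] in
theorem ker_nonneg {ε : ℝ} (h0 : 0 ≤ ε) (h1 : ε ≤ 1) {g s : P → ℝ} (hs : ∀ y, |s y| ≤ g y)
    (o : Option (Fin 24)) (y : Fin 6 → P) : 0 ≤ ker ε g s o y := by
  cases o with
  | none => exact zero_le_one
  | some k =>
    have ha0 : 0 ≤ ε ^ ecost k := pow_nonneg h0 _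
    have ha1 : ε ^ ecost k ≤ 1 := pow_le_one₀ h0 h1
    have hg : ∀ y, 0 ≤ g y := fun y => (abs_nonneg _).trans (hs y)
    have hAB : |∏ i, kerB g s (pth k) i (y i)| ≤ ∏ i, kerA g (pth k) i (y i) := by
      rw [Finset.abs_prod]
      refine Finset.prod_le_prod (fun i _ => abs_nonneg _) fun i _ => ?_
      unfold kerA kerB
      split_ifs
      · simp
      · have := hg (y i)
        rw [abs_le]
        constructor <;> linarith
      · exact hs _
    have h2 : |sg k * ∏ i, kerB g s (pth k) i (y i)| ≤ ∏ i, kerA g (pth k) i (y i) := by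
      rwa [abs_mul, abs_sg, one_mul]
    have h3 := (abs_le.1 h2).1
    have h4 : 0 ≤ (ε ^ ecost k / 2) * (∏ i, kerA g (pth k) i (y i) +
        sg k * ∏ i, kerB g s (pth k) i (y i)) := mul_nonneg (by linarith) (by linarith)
    simp only [ker]
    nlinarith

omit [AddCommGroup D] [Fintype D] [AddCommGroup P] in
theorem prod_ft (χ : D → P → ℂ) (Ξ : Fin 6 → D) (f : Fin 6 → P → ℝ) (c : Fin 6 → ℝ)
    (h : ∀ i, ∑ y, (f i y : ℂ) * χ (Ξ i) y = (Fintype.card P : ℂ) * (c i : ℝ)) :
    ∑ y : Fin 6 → P, ((∏ i, f i (y i) : ℝ) : ℂ) * ∏ i, χ (Ξ i) (y i) =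
      (Fintype.card (Fin 6 → P) : ℂ) * ((∏ i, c i : ℝ) : ℂ) := by
  classical
  have h1 : ∀ y : Fin 6 → P, ((∏ i, f i (y i) : ℝ) : ℂ) * ∏ i, χ (Ξ i) (y i) =
      ∏ i, ((f i (y i) : ℂ) * χ (Ξ i) (y i)) := by
    intro y
    rw [Finset.prod_mul_distrib]
    push_cast
    rfl
  simp_rw [h1]
  have h2 := Finset.prod_univ_sum (fun _ : Fin 6 => (univ : Finset P))
    (fun i y => (f i y : ℂ) * χ (Ξ i) y)
  rw [Fintype.piFinset_univ] at h2
  rw [← h2, Finset.prod_congr rfl fun i _ => h i, Finset.prod_mul_distrib]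
  simp

theorem ker_ft {χ : D → P → ℂ} {rk : D → ℕ} {g s : P → ℝ} {γ : D → ℝ} {C c t : ℝ}
    (G : IsGeo χ rk g s γ C c t) (ε : ℝ) (o : Option (Fin 24)) (Ξ : Fin 6 → D) :
    ∑ y : Fin 6 → P, (ker ε g s o y : ℂ) * ∏ i, χ (Ξ i) (y i) =
      (Fintype.card (Fin 6 → P) : ℂ) *
        (((∏ i, γ (Ξ i)) * kap ε o (fun i => rk (Ξ i)) : ℝ) : ℂ) := by
  have e0 := prod_ft χ Ξ (fun _ _ => 1) (fun i => γ (Ξ i) * if rk (Ξ i) = 0 then 1 else 0)
    fun i => by simpa using G.ft_one (Ξ i)
  rw [Finset.prod_mul_distrib] at e0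
  simp only [Finset.prod_const_one, Complex.ofReal_one, one_mul] at e0
  cases o with
  | none =>
    simp only [ker, kap, Complex.ofReal_one, one_mul]
    exact e0
  | some k =>
    have eA := prod_ft χ Ξ (fun i => kerA g (pth k) i)
      (fun i => γ (Ξ i) * (alZ (pth k) i (rk (Ξ i)) : ℝ)) fun i => by
        have h1 := G.ft_one (Ξ i)
        have h2 := G.ft_g (Ξ i)
        unfold kerA alZ
        by_cases c1 : i = opp (pth k)
        · simp only [if_pos c1, Complex.ofReal_one, one_mul, h1]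
          split_ifs <;> simp
        · by_cases c2 : i = pth k
          · simp only [if_neg c1, if_pos c2, Complex.ofReal_add, Complex.ofReal_one, add_mul,
              one_mul, Finset.sum_add_distrib, h1, h2]
            split_ifs <;> push_cast <;> ring
          · simp only [if_neg c1, if_neg c2, h2]
            split_ifs <;> simp
    have eB := prod_ft χ Ξ (fun i => kerB g s (pth k) i)
      (fun i => γ (Ξ i) * (beZ (pth k) i (rk (Ξ i)) : ℝ)) fun i => by
        have h1 := G.ft_one (Ξ i)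
        have h2 := G.ft_g (Ξ i)
        have h3 := G.ft_s (Ξ i)
        unfold kerB beZ
        by_cases c1 : i = opp (pth k)
        · simp only [if_pos c1, Complex.ofReal_one, one_mul, h1]
          split_ifs <;> simp
        · by_cases c2 : i = pth k
          · simp only [if_neg c1, if_pos c2, Complex.ofReal_sub, Complex.ofReal_one, sub_mul,
              one_mul, Finset.sum_sub_distrib, h1, h2]
            split_ifs <;> push_cast <;> ring
          · simp only [if_neg c1, if_neg c2, h3]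
            split_ifs <;> simp
    rw [Finset.prod_mul_distrib] at eA eB
    have h1 : ∀ y : Fin 6 → P, (ker ε g s (some k) y : ℂ) * ∏ i, χ (Ξ i) (y i) =
        ((1 - ε ^ ecost k : ℝ) : ℂ) * ∏ i, χ (Ξ i) (y i) +
        ((ε ^ ecost k / 2 : ℝ) : ℂ) *
          (((∏ i, kerA g (pth k) i (y i) : ℝ) : ℂ) * ∏ i, χ (Ξ i) (y i)) +
        ((ε ^ ecost k * sg k / 2 : ℝ) : ℂ) *
          (((∏ i, kerB g s (pth k) i (y i) : ℝ) : ℂ) * ∏ i, χ (Ξ i) (y i)) := by
      intro y
      simp only [ker, Complex.ofReal_add, Complex.ofReal_mul]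
      ring
    simp_rw [h1]
    rw [Finset.sum_add_distrib, Finset.sum_add_distrib, ← Finset.mul_sum, ← Finset.mul_sum,
      ← Finset.mul_sum, e0, eA, eB]
    simp only [kap, Complex.ofReal_add, Complex.ofReal_mul]
    ring

/-- the term of a tuple of functions on faces -/
noncomputable def term (rk : D → ℕ) (γ : D → ℝ) (ε : ℝ) (o : Fin 24 → Option (Fin 24))
    (Z : Fin 6 → Fin 4 → D) : ℝ :=
  (∏ i, ∏ p, γ (dif (Z i) p) ^ len p) * ∏ e, kap ε (o e) fun i => rks rk (Z i) (pth e)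

theorem density_eq {χ : D → P → ℂ} {rk : D → ℕ} {g s : P → ℝ} {γ : D → ℝ} {C c t : ℝ}
    (G : IsGeo χ rk g s γ C c t) (ε : ℝ) (o : Fin 24 → Option (Fin 24)) :
    ∑ x : Fin 22 → Fin 6 → P, ∏ e, ker ε g s (o e) (x (src e) - x (tgt e)) =
      (Fintype.card (Fin 6 → P) : ℝ) ^ 21 * ∑ Z : Fin 6 → Fin 4 → D, term rk γ ε o Z := by
  have h := fourier_identity G.pairing.pi fun e y => (ker ε g s (o e) y : ℂ)
  simp_rw [ker_ft G] at h
  have hN : (Fintype.card (Fin 6 → P) : ℂ) ≠ 0 := by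
    exact_mod_cast Fintype.card_ne_zero
  have h2 : ∑ Z : Fin 4 → Fin 6 → D, ∏ e : Fin 24, ((Fintype.card (Fin 6 → P) : ℂ) *
      (((∏ i, γ (dif Z (pth e) i)) * kap ε (o e) (fun i => rk (dif Z (pth e) i)) : ℝ) : ℂ)) =
      (Fintype.card (Fin 6 → P) : ℂ) ^ 24 *
        ((∑ Z : Fin 6 → Fin 4 → D, term rk γ ε o Z : ℝ) : ℂ) := by
    rw [Complex.ofReal_sum, Finset.mul_sum]
    refine Fintype.sum_equiv (Equiv.piComm _) _ _ fun Z => ?_
    rw [Finset.prod_mul_distrib, Finset.prod_const, Finset.card_univ, Fintype.card_fin,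
      ← Complex.ofReal_prod]
    congr 2
    unfold term
    rw [Finset.prod_mul_distrib, Finset.prod_comm]
    congr 1
    refine Finset.prod_congr rfl fun i _ => ?_
    exact prod_pth fun p => γ (dif Z p i)
  rw [h2] at h
  have h3 : (∑ x : Fin 22 → Fin 6 → P, ∏ e, (ker ε g s (o e) (x (src e) - x (tgt e)) : ℂ)) =
      (Fintype.card (Fin 6 → P) : ℂ) ^ 21 *
        ((∑ Z : Fin 6 → Fin 4 → D, term rk γ ε o Z : ℝ) : ℂ) := by
    refine mul_right_cancel₀ (pow_ne_zero 3 hN) ?_
    rw [h]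
    ring
  exact_mod_cast h3

theorem ker_mean {χ : D → P → ℂ} {rk : D → ℕ} {g s : P → ℝ} {γ : D → ℝ} {C c t : ℝ}
    (G : IsGeo χ rk g s γ C c t) (ε : ℝ) (o : Option (Fin 24)) :
    ∑ y : Fin 6 → P, ker ε g s o y = Fintype.card (Fin 6 → P) := by
  have h := ker_ft G ε o 0
  have h0 : rk 0 = 0 := (G.rk_zero 0).2 rfl
  rw [kap_zero ε o (fun i => by simpa using h0)] at h
  simp only [Pi.zero_apply, G.pairing.chi_zero_left, G.gam_zero, Finset.prod_const_one, mul_one,
    Complex.ofReal_one] at h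
  exact_mod_cast h

end Vale.Agent.P050Z
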