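import Vale.Agent.P050Z.Asm2

/-! Bounds for the terms of the expansion and for their sums. -/

namespace Vale.Agent.P050Z

open Finset

variable {D P : Type} [AddCommGroup D] [Fintype D] [AddCommGroup P] [Fintype P]

/-- indicator of the functions on faces all of whose differences have rank zero -/
def flat (rk : D → ℕ) (Z : Fin 4 → D) : ℝ := if ∀ p, rks rk Z p = 0 then 1 else 0

/-- the part of the weight carried by tuples with a bad member -/
noncomputable def badSum (rk : D → ℕ) (t : ℝ) (Z : Fin 6 → Fin 4 → D) : ℝ :=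
  ∑ i, ∑ j, if Bad j (rks rk (Z i)) then ∏ i', wt rk t (Z i') else 0

/-- the weight restricted to the full main pattern -/
noncomputable def pairWt (rk : D → ℕ) (t : ℝ) (j : Fin 6) (Z : Fin 4 → D) : ℝ :=
  if rks rk Z = pat j 1 1 then wt rk t Z else 0

omit [Fintype D] in
theorem wt_nonneg (rk : D → ℕ) {t : ℝ} (ht : 0 ≤ t) (Z : Fin 4 → D) : 0 ≤ wt rk t Z :=
  Finset.prod_nonneg fun _ _ => pow_nonneg ht _

omit [Fintype D] in
theorem flat_nonneg (rk : D → ℕ) (Z : Fin 4 → D) : 0 ≤ flat rk Z := by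
  unfold flat
  split_ifs <;> norm_num

omit [Fintype D] in
theorem pairWt_nonneg (rk : D → ℕ) {t : ℝ} (ht : 0 ≤ t) (j : Fin 6) (Z : Fin 4 → D) :
    0 ≤ pairWt rk t j Z := by
  unfold pairWt
  split_ifs
  · exact wt_nonneg rk ht Z
  · exact le_rfl

omit [Fintype D] in
theorem badSum_nonneg (rk : D → ℕ) {t : ℝ} (ht : 0 ≤ t) (Z : Fin 6 → Fin 4 → D) :
    0 ≤ badSum rk t Z := by
  refine Finset.sum_nonneg fun i _ => Finset.sum_nonneg fun j _ => ?_
  split_ifs
  · exact Finset.prod_nonneg fun i _ => wt_nonneg rk ht _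
  · exact le_rfl

omit [Fintype D] in
theorem le_badSum (rk : D → ℕ) {t : ℝ} (ht : 0 ≤ t) (Z : Fin 6 → Fin 4 → D) {i j : Fin 6}
    (h : Bad j (rks rk (Z i))) : ∏ i', wt rk t (Z i') ≤ badSum rk t Z := by
  have hn : ∀ i j, 0 ≤ (if Bad j (rks rk (Z i)) then ∏ i', wt rk t (Z i') else 0) := by
    intro i j
    split_ifs
    · exact Finset.prod_nonneg fun i _ => wt_nonneg rk ht _
    · exact le_rfl
  calc ∏ i', wt rk t (Z i') = if Bad j (rks rk (Z i)) then ∏ i', wt rk t (Z i') else 0 := by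
        rw [if_pos h]
    _ ≤ ∑ j, if Bad j (rks rk (Z i)) then ∏ i', wt rk t (Z i') else 0 :=
        Finset.single_le_sum
          (f := fun j => if Bad j (rks rk (Z i)) then ∏ i', wt rk t (Z i') else 0)
          (fun j _ => hn i j) (mem_univ j)
    _ ≤ badSum rk t Z :=
        Finset.single_le_sum
          (f := fun i => ∑ j, if Bad j (rks rk (Z i)) then ∏ i', wt rk t (Z i') else 0)
          (fun i _ => Finset.sum_nonneg fun j _ => hn i j) (mem_univ i)

section pointwise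

variable {χ : D → P → ℂ} {rk : D → ℕ} {g s : P → ℝ} {γ : D → ℝ} {C c t : ℝ}

theorem abs_gam_prod_le (G : IsGeo χ rk g s γ C c t) (Z : Fin 6 → Fin 4 → D) :
    |∏ i, ∏ p, γ (dif (Z i) p) ^ len p| ≤ ∏ i, wt rk t (Z i) := by
  rw [Finset.abs_prod]
  refine Finset.prod_le_prod (fun i _ => abs_nonneg _) fun i _ => ?_
  rw [Finset.abs_prod]
  refine Finset.prod_le_prod (fun p _ => abs_nonneg _) fun p _ => ?_
  rw [abs_pow, mul_comm, pow_mul]
  exact pow_le_pow_left₀ (abs_nonneg _) (G.gam_abs _) _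

theorem term_le_of_le (G : IsGeo χ rk g s γ C c t) (ε : ℝ) (o : Fin 24 → Option (Fin 24))
    (Z : Fin 6 → Fin 4 → D) (b : Fin 24 → ℝ)
    (h : ∀ e, |kap ε (o e) fun i => rks rk (Z i) (pth e)| ≤ b e) :
    term rk γ ε o Z ≤ (∏ e, b e) * ∏ i, wt rk t (Z i) := by
  refine (le_abs_self _).trans ?_
  unfold term
  rw [abs_mul, mul_comm]
  refine mul_le_mul ?_ (abs_gam_prod_le G Z) (abs_nonneg _)
    (Finset.prod_nonneg fun e _ => (abs_nonneg _).trans (h e))
  rw [Finset.abs_prod]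
  exact Finset.prod_le_prod (fun e _ => abs_nonneg _) fun e _ => h e

theorem term_le_wt (G : IsGeo χ rk g s γ C c t) {ε : ℝ} (h0 : 0 ≤ ε) (h1 : ε ≤ 1)
    (o : Fin 24 → Option (Fin 24)) (Z : Fin 6 → Fin 4 → D) :
    term rk γ ε o Z ≤ ∏ i, wt rk t (Z i) := by
  simpa using term_le_of_le G ε o Z (fun _ => 1) fun e => abs_kap_le_one h0 h1 _ _

theorem term_flat (G : IsGeo χ rk g s γ C c t) (ε : ℝ) (o : Fin 24 → Option (Fin 24))
    (Z : Fin 6 → Fin 4 → D) (h : ∀ i p, rks rk (Z i) p = 0) :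
    term rk γ ε o Z = ∏ i, flat rk (Z i) := by
  have h1 : ∀ i p, dif (Z i) p = 0 := fun i p => (G.rk_zero _).1 (h i p)
  unfold term flat
  rw [Finset.prod_eq_one fun e _ => kap_zero ε (o e) fun i => h i (pth e)]
  simp [h1, h, G.gam_zero]

omit [Fintype D] in
theorem term_eq_zero (ε : ℝ) (o : Fin 24 → Option (Fin 24)) (Z : Fin 6 → Fin 4 → D) (e : Fin 24)
    (h : (kap ε (o e) fun i => rks rk (Z i) (pth e)) = 0) : term rk γ ε o Z = 0 := by
  unfold term
  rw [Finset.prod_eq_zero (mem_univ e) h, mul_zero]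

/-- the bound for an arbitrary map of types -/
theorem term_le_gen (G : IsGeo χ rk g s γ C c t) {ε : ℝ} (h0 : 0 ≤ ε) (h1 : ε ≤ 1)
    (o : Fin 24 → Option (Fin 24)) (Z : Fin 6 → Fin 4 → D) :
    term rk γ ε o Z ≤ ∏ i, flat rk (Z i) + badSum rk t Z +
      (∏ e, act ε (o e)) * ∏ i, wt rk t (Z i) := by
  have n1 : 0 ≤ ∏ i, flat rk (Z i) := Finset.prod_nonneg fun i _ => flat_nonneg rk _
  have n2 := badSum_nonneg rk G.t_nonneg Z
  have n3 : 0 ≤ (∏ e, act ε (o e)) * ∏ i, wt rk t (Z i) :=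
    mul_nonneg (Finset.prod_nonneg fun e _ => act_nonneg h0 _)
      (Finset.prod_nonneg fun i _ => wt_nonneg rk G.t_nonneg _)
  by_cases hz : ∀ i p, rks rk (Z i) p = 0
  · rw [term_flat G ε o Z hz]
    linarith
  by_cases hall : ∀ p, ∃ i, rks rk (Z i) p ≠ 0
  · have := term_le_of_le G ε o Z (fun e => act ε (o e)) fun e =>
      abs_kap_le_act h0 (o e) (hall (pth e))
    linarith
  push Not at hz hall
  obtain ⟨p0, hp0⟩ := hall
  by_cases hb : ∃ i, Bad (opp p0) (rks rk (Z i))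
  · obtain ⟨i, hi⟩ := hb
    have := (term_le_wt G h0 h1 o Z).trans (le_badSum rk G.t_nonneg Z hi)
    linarith
  push Not at hb
  have hm : ∀ i, ∃ a b : Fin 2, rks rk (Z i) = pat (opp p0) a b := fun i =>
    not_bad (by rw [opp_opp]; exact hp0 i) (hb i)
  choose a b hab using hm
  obtain ⟨i0, p1, hp1⟩ := hz
  obtain ⟨p, hp, hp'⟩ := main_side (opp p0) (a i0) (b i0) ⟨p1, by rwa [← hab i0]⟩
  obtain ⟨e, rfl⟩ := pth_surj p
  rw [term_eq_zero ε o Z e (kap_of_le_one ε (o e) ⟨i0, by rwa [hab i0]⟩ fun i => by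
    rw [hab i]; exact hp' _ _)]
  linarith

/-- the bound for an automorphism -/
theorem term_le_aut (G : IsGeo χ rk g s γ C c t) {ε : ℝ} (h0 : 0 ≤ ε) (h1 : ε ≤ 1) (a : Fin 4)
    (Z : Fin 6 → Fin 4 → D) :
    term rk γ ε (fun e => some (autE a e)) Z ≤ ∏ i, flat rk (Z i) + badSum rk t Z -
      ((∏ e, ε ^ ecost (autE a e)) / 2 ^ 24) * ∏ i, pairWt rk t (autP a i) (Z i) := by
  have n1 : 0 ≤ ∏ i, flat rk (Z i) := Finset.prod_nonneg fun i _ => flat_nonneg rk _
  have n2 := badSum_nonneg rk G.t_nonneg Z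
  by_cases hf : ∀ i, rks rk (Z i) = pat (autP a i) 1 1
  · have e1 : ∏ i, ∏ p, γ (dif (Z i) p) ^ len p = ∏ i, pairWt rk t (autP a i) (Z i) := by
      refine Finset.prod_congr rfl fun i _ => ?_
      rw [G.pair_sign _ _ (hf i), pairWt, if_pos (hf i)]
    have e2 : ∏ e, kap ε (some (autE a e)) (fun i => rks rk (Z i) (pth e)) =
        -((∏ e, ε ^ ecost (autE a e)) / 2 ^ 24) := by
      rw [Finset.prod_congr rfl fun e _ => kap_full ε (autE a e) fun i => by
        rw [hf i, pth_autE, pat_full]]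
      rw [Finset.prod_div_distrib, Finset.prod_mul_distrib, prod_sg_aut, Finset.prod_const,
        Finset.card_univ, Fintype.card_fin]
      ring
    unfold term
    rw [e1, e2]
    linarith
  have e0 : ∏ i, pairWt rk t (autP a i) (Z i) = 0 := by
    push Not at hf
    obtain ⟨i, hi⟩ := hf
    exact Finset.prod_eq_zero (mem_univ i) (if_neg hi)
  rw [e0, mul_zero, sub_zero]
  by_cases hz : ∀ i p, rks rk (Z i) p = 0
  · rw [term_flat G ε _ Z hz]
    linarith
  by_cases ho : ∀ i, rks rk (Z i) (opp (autP a i)) = 0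
  swap
  · push Not at ho
    obtain ⟨i, hi⟩ := ho
    obtain ⟨e, he⟩ := pth_surj (opp (autP a i))
    have hd : Dead (pth (autE a e)) fun i => rks rk (Z i) (pth e) := by
      refine dead_of_opp ?_
      rw [pth_autE, he, opp_autP]
      exact hi
    rw [term_eq_zero (rk := rk) (γ := γ) ε (fun e => some (autE a e)) Z e (kap_dead ε _ hd)]
    linarith
  by_cases hb : ∃ i, Bad (autP a i) (rks rk (Z i))
  · obtain ⟨i, hi⟩ := hb
    have := (term_le_wt G h0 h1 (fun e => some (autE a e)) Z).trans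
      (le_badSum rk G.t_nonneg Z hi)
    linarith
  push Not at hb
  have hm : ∀ i, ∃ x y : Fin 2, rks rk (Z i) = pat (autP a i) x y := fun i =>
    not_bad (ho i) (hb i)
  choose x y hxy using hm
  rcases bit_check a x y with h | h | ⟨p, hp⟩
  · exact absurd (fun i p => by rw [hxy i, (h i).1, (h i).2]; exact pat_zero _ _) hz
  · exact absurd (fun i => by rw [hxy i, (h i).1, (h i).2]; rfl) hf
  · obtain ⟨e, rfl⟩ := pth_surj p
    have hd : Dead (pth (autE a e)) fun i => rks rk (Z i) (pth e) := by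
      rw [pth_autE]
      simpa only [hxy] using hp
    rw [term_eq_zero (rk := rk) (γ := γ) ε (fun e => some (autE a e)) Z e (kap_dead ε _ hd)]
    linarith

end pointwise

section sums

variable {χ : D → P → ℂ} {rk : D → ℕ} {g s : P → ℝ} {γ : D → ℝ} {C c t : ℝ}

omit [AddCommGroup D] in
theorem sum_prod_pi (f : Fin 6 → (Fin 4 → D) → ℝ) :
    ∑ Z : Fin 6 → Fin 4 → D, ∏ i, f i (Z i) = ∏ i, ∑ z, f i z := by
  classical
  have h := Finset.prod_univ_sum (fun _ : Fin 6 => (univ : Finset (Fin 4 → D))) f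
  rw [Fintype.piFinset_univ] at h
  exact h.symm

theorem sum_flat_le (G : IsGeo χ rk g s γ C c t) :
    ∑ z : Fin 4 → D, flat rk z ≤ Fintype.card D := by
  classical
  unfold flat
  rw [Finset.sum_boole, ← Finset.card_univ (α := D)]
  refine Nat.cast_le.2 (Finset.card_le_card_of_injOn (fun z => z 0) (fun _ _ => by simp) ?_)
  have key : ∀ z : Fin 4 → D, (∀ p, rks rk z p = 0) → ∀ f, z f = z 0 := by
    intro z hz f
    have h1 := sub_eq_zero.1 ((G.rk_zero _).1 (hz 1))
    have h3 := sub_eq_zero.1 ((G.rk_zero _).1 (hz 3))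
    have h5 := sub_eq_zero.1 ((G.rk_zero _).1 (hz 5))
    fin_cases f
    · rfl
    · exact h1.symm
    · exact h3
    · exact h5.symm
  intro z hz z' hz' h
  funext f
  rw [key z (by simpa using hz) f, key z' (by simpa using hz') f]
  exact h

theorem C_nonneg (G : IsGeo χ rk g s γ C c t) : 0 ≤ C := by
  have h1 : (0 : ℝ) < Fintype.card D := by exact_mod_cast Fintype.card_pos
  have h2 : 0 ≤ C * Fintype.card D :=
    (Finset.sum_nonneg fun z _ => wt_nonneg rk G.t_nonneg z).trans G.tot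
  exact nonneg_of_mul_nonneg_left h2 h1

theorem sum_prod_flat_le (G : IsGeo χ rk g s γ C c t) :
    ∑ Z : Fin 6 → Fin 4 → D, ∏ i, flat rk (Z i) ≤ (Fintype.card D : ℝ) ^ 6 := by
  rw [sum_prod_pi fun _ z => flat rk z, Finset.prod_const, Finset.card_univ, Fintype.card_fin]
  exact pow_le_pow_left₀ (Finset.sum_nonneg fun z _ => flat_nonneg rk z) (sum_flat_le G) 6

theorem sum_prod_wt_le (G : IsGeo χ rk g s γ C c t) :
    ∑ Z : Fin 6 → Fin 4 → D, ∏ i, wt rk t (Z i) ≤ C ^ 6 * (Fintype.card D : ℝ) ^ 6 := by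
  rw [sum_prod_pi fun _ z => wt rk t z, Finset.prod_const, Finset.card_univ, Fintype.card_fin,
    ← mul_pow]
  exact pow_le_pow_left₀ (Finset.sum_nonneg fun z _ => wt_nonneg rk G.t_nonneg z) G.tot 6

theorem sum_badSum_le (G : IsGeo χ rk g s γ C c t) :
    ∑ Z : Fin 6 → Fin 4 → D, badSum rk t Z ≤ 36 * C ^ 6 * t * (Fintype.card D : ℝ) ^ 6 := by
  have hC := C_nonneg G
  have ht := G.t_nonneg
  have key : ∀ i j : Fin 6, ∑ Z : Fin 6 → Fin 4 → D,
      (if Bad j (rks rk (Z i)) then ∏ i', wt rk t (Z i') else 0) ≤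
        C ^ 6 * t * (Fintype.card D : ℝ) ^ 6 := by
    intro i j
    have h1 : ∀ Z : Fin 6 → Fin 4 → D,
        (if Bad j (rks rk (Z i)) then ∏ i', wt rk t (Z i') else 0) =
        ∏ i', (fun (i' : Fin 6) (z : Fin 4 → D) =>
          if i' = i then (if Bad j (rks rk z) then wt rk t z else 0) else wt rk t z) i' (Z i') := by
      intro Z
      by_cases hb : Bad j (rks rk (Z i))
      · rw [if_pos hb]
        refine Finset.prod_congr rfl fun i' _ => ?_
        by_cases hi : i' = i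
        · subst hi
          simp [hb]
        · simp [hi]
      · rw [if_neg hb]
        exact (Finset.prod_eq_zero (mem_univ i) (by simp [hb])).symm
    simp_rw [h1]
    rw [sum_prod_pi fun (i' : Fin 6) (z : Fin 4 → D) =>
      if i' = i then (if Bad j (rks rk z) then wt rk t z else 0) else wt rk t z]
    have h2 : C ^ 6 * t * (Fintype.card D : ℝ) ^ 6 =
        ∏ i' : Fin 6, (if i' = i then C * t * Fintype.card D else C * Fintype.card D) := by
      rw [← Finset.mul_prod_erase univ _ (mem_univ i), if_pos rfl,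
        Finset.prod_congr rfl fun i' hi' => if_neg (Finset.ne_of_mem_erase hi'),
        Finset.prod_const, Finset.card_erase_of_mem (mem_univ i), Finset.card_univ,
        Fintype.card_fin]
      ring
    rw [h2]
    refine Finset.prod_le_prod (fun i' _ => Finset.sum_nonneg fun z _ => ?_) fun i' _ => ?_
    · split_ifs
      · exact wt_nonneg rk ht z
      · exact le_rfl
      · exact wt_nonneg rk ht z
    · by_cases hi : i' = i
      · simp only [if_pos hi]
        rw [← Finset.sum_filter]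
        exact G.bad j
      · simp only [if_neg hi]
        exact G.tot
  unfold badSum
  rw [Finset.sum_comm]
  refine (Finset.sum_le_sum fun i _ => ?_ :
    _ ≤ ∑ _i : Fin 6, 6 * (C ^ 6 * t * (Fintype.card D : ℝ) ^ 6)).trans (le_of_eq ?_)
  · rw [Finset.sum_comm]
    refine (Finset.sum_le_sum fun j _ => key i j).trans (le_of_eq ?_)
    simp
  · simp
    ring

theorem le_sum_prod_pairWt (G : IsGeo χ rk g s γ C c t) (hc : 0 ≤ c) (σ : Fin 6 → Fin 6) :
    c ^ 6 * (Fintype.card D : ℝ) ^ 6 ≤ ∑ Z : Fin 6 → Fin 4 → D, ∏ i, pairWt rk t (σ i) (Z i) := by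
  rw [sum_prod_pi fun i z => pairWt rk t (σ i) z, ← mul_pow]
  have h1 : (c * (Fintype.card D : ℝ)) ^ 6 = ∏ _i : Fin 6, c * (Fintype.card D : ℝ) := by simp
  rw [h1]
  refine Finset.prod_le_prod (fun i _ => by positivity) fun i _ => ?_
  unfold pairWt
  rw [← Finset.sum_filter]
  exact G.pair _

theorem sum_term_gen (G : IsGeo χ rk g s γ C c t) {ε : ℝ} (h0 : 0 ≤ ε) (h1 : ε ≤ 1)
    (o : Fin 24 → Option (Fin 24)) :
    ∑ Z : Fin 6 → Fin 4 → D, term rk γ ε o Z ≤
      (1 + 36 * C ^ 6 * t + (∏ e, act ε (o e)) * C ^ 6) * (Fintype.card D : ℝ) ^ 6 := by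
  refine (Finset.sum_le_sum fun Z _ => term_le_gen G h0 h1 o Z).trans ?_
  rw [Finset.sum_add_distrib, Finset.sum_add_distrib, ← Finset.mul_sum]
  have h2 := mul_le_mul_of_nonneg_left (sum_prod_wt_le G)
    (Finset.prod_nonneg fun e (_ : e ∈ univ) => act_nonneg h0 (o e))
  have h3 := sum_prod_flat_le G
  have h4 := sum_badSum_le G
  nlinarith

theorem sum_term_aut (G : IsGeo χ rk g s γ C c t) (hc : 0 ≤ c) {ε : ℝ} (h0 : 0 ≤ ε) (h1 : ε ≤ 1)
    (a : Fin 4) :
    ∑ Z : Fin 6 → Fin 4 → D, term rk γ ε (fun e => some (autE a e)) Z ≤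
      (1 + 36 * C ^ 6 * t - ((∏ e, ε ^ ecost (autE a e)) / 2 ^ 24) * c ^ 6) *
        (Fintype.card D : ℝ) ^ 6 := by
  refine (Finset.sum_le_sum fun Z _ => term_le_aut G h0 h1 a Z).trans ?_
  rw [Finset.sum_sub_distrib, Finset.sum_add_distrib, ← Finset.mul_sum]
  have hn : 0 ≤ (∏ e, ε ^ ecost (autE a e)) / 2 ^ 24 :=
    div_nonneg (Finset.prod_nonneg fun e _ => pow_nonneg h0 _) (by norm_num)
  have h2 := mul_le_mul_of_nonneg_left (le_sum_prod_pairWt G hc (autP a)) hn
  have h3 := sum_prod_flat_le G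
  have h4 := sum_badSum_le G
  nlinarith

end sums

end Vale.Agent.P050Z
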