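import Vale.Agent.P050Z.Asm3

/-! The typed kernel and the strict inequality. -/

namespace Vale.Agent.P050Z

open Finset

/-- the total weight of the types -/
noncomputable def zs (ε : ℝ) : ℝ := ∑ τ : Fin 22, ε ^ vcost τ

/-- the probability of a type -/
noncomputable def mu (ε : ℝ) (τ : Fin 22) : ℝ := ε ^ vcost τ / zs ε

/-- the pairs of types on the edges under a map of types -/
def opt (φ : Fin 22 → Fin 22) (e : Fin 24) : Option (Fin 24) := edgeIdx (φ (src e)) (φ (tgt e))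

theorem zs_pos {ε : ℝ} (h : 0 < ε) : 0 < zs ε :=
  Finset.sum_pos (fun _ _ => pow_pos h _) Finset.univ_nonempty

theorem mu_nonneg {ε : ℝ} (h : 0 < ε) (τ : Fin 22) : 0 ≤ mu ε τ :=
  div_nonneg (pow_pos h _).le (zs_pos h).le

theorem sum_mu {ε : ℝ} (h : 0 < ε) : ∑ τ, mu ε τ = 1 := by
  unfold mu
  rw [← Finset.sum_div]
  exact div_self (zs_pos h).ne'

theorem sum_prod_mu {ε : ℝ} (h : 0 < ε) : ∑ φ : Fin 22 → Fin 22, ∏ v, mu ε (φ v) = 1 := by
  have h1 := Finset.prod_univ_sum (fun _ : Fin 22 => (univ : Finset (Fin 22)))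
    (fun _ τ => mu ε τ)
  rw [Fintype.piFinset_univ] at h1
  rw [← h1, sum_mu h, Finset.prod_const_one]

theorem prod_mu_eq (ε : ℝ) (φ : Fin 22 → Fin 22) :
    ∏ v, mu ε (φ v) = ε ^ (∑ v, vcost (φ v)) / zs ε ^ 22 := by
  unfold mu
  rw [Finset.prod_div_distrib, Finset.prod_pow_eq_pow_sum, Finset.prod_const, Finset.card_univ,
    Fintype.card_fin]

theorem weight_aut (ε : ℝ) (a : Fin 4) :
    (∏ v, mu ε (autV a v)) * ∏ e, ε ^ ecost (autE a e) = ε ^ 1010 / zs ε ^ 22 := by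
  rw [prod_mu_eq, Finset.prod_pow_eq_pow_sum, div_mul_eq_mul_div, ← pow_add, cost_aut]

theorem weight_other {ε : ℝ} (h0 : 0 < ε) (h1 : ε ≤ 1) (φ : Fin 22 → Fin 22)
    (hφ : ¬ ∃ a, φ = autV a) :
    (∏ v, mu ε (φ v)) * ∏ e, act ε (opt φ e) ≤ ε ^ 1011 / zs ε ^ 22 := by
  have hz := zs_pos h0
  by_cases hh : ∀ e, ∃ k, opt φ e = some k
  · choose κ hκ using hh
    rcases rigid φ κ hκ with h | h
    · exact absurd h hφ
    · simp_rw [hκ]
      simp only [act]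
      rw [prod_mu_eq, Finset.prod_pow_eq_pow_sum, div_mul_eq_mul_div, ← pow_add]
      exact div_le_div_of_nonneg_right (pow_le_pow_of_le_one h0.le h1 h) (by positivity)
  · push Not at hh
    obtain ⟨e, he⟩ := hh
    have h2 : opt φ e = none := Option.eq_none_iff_forall_ne_some.2 he
    rw [Finset.prod_eq_zero (mem_univ e) (by rw [h2]; rfl), mul_zero]
    positivity

section host

variable {D P : Type} [AddCommGroup D] [Fintype D] [AddCommGroup P] [Fintype P]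
variable {χ : D → P → ℂ} {rk : D → ℕ} {g s : P → ℝ} {γ : D → ℝ} {C c t : ℝ}

/-- the weights of the host -/
noncomputable def hostM (P : Type) [Fintype P] (ε : ℝ) (x : Fin 22 × (Fin 6 → P)) : ℝ :=
  mu ε x.1 / Fintype.card (Fin 6 → P)

/-- the kernel of the host -/
noncomputable def hostW (ε : ℝ) (g s : P → ℝ) (x y : Fin 22 × (Fin 6 → P)) : ℝ :=
  ker ε g s (edgeIdx x.1 y.1) (x.2 - y.2)

theorem cardQ_pos : (0 : ℝ) < Fintype.card (Fin 6 → P) := by
  exact_mod_cast Fintype.card_pos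

theorem sum_hostM {ε : ℝ} (h : 0 < ε) : ∑ x, hostM P ε x = 1 := by
  have hN := cardQ_pos (P := P)
  rw [Fintype.sum_prod_type, ← sum_mu h]
  refine Finset.sum_congr rfl fun τ _ => ?_
  simp only [hostM]
  rw [Finset.sum_const, Finset.card_univ, nsmul_eq_mul]
  field_simp

theorem host_mean (G : IsGeo χ rk g s γ C c t) {ε : ℝ} (h : 0 < ε) :
    ∑ x, ∑ y, hostM P ε x * hostM P ε y * hostW ε g s x y = 1 := by
  have hN := cardQ_pos (P := P)
  have h1 : ∀ x : Fin 22 × (Fin 6 → P),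
      ∑ y, hostM P ε x * hostM P ε y * hostW ε g s x y = hostM P ε x := by
    intro x
    rw [Fintype.sum_prod_type]
    have h2 : ∀ τ : Fin 22, ∑ y : Fin 6 → P,
        hostM P ε x * hostM P ε (τ, y) * hostW ε g s x (τ, y) = hostM P ε x * mu ε τ := by
      intro τ
      have h3 : ∑ y : Fin 6 → P, ker ε g s (edgeIdx x.1 τ) (x.2 - y) =
          Fintype.card (Fin 6 → P) := by
        rw [← ker_mean G ε (edgeIdx x.1 τ)]
        exact Fintype.sum_equiv (Equiv.subLeft x.2) _ _ fun y => rfl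
      simp only [hostW]
      have h4 : ∀ y : Fin 6 → P, hostM P ε (τ, y) = mu ε τ / Fintype.card (Fin 6 → P) :=
        fun _ => rfl
      simp_rw [h4]
      rw [← Finset.mul_sum, h3]
      field_simp
    simp_rw [h2]
    rw [← Finset.mul_sum, sum_mu h, mul_one]
  simp_rw [h1]
  exact sum_hostM h

theorem host_density (G : IsGeo χ rk g s γ C c t) (ε : ℝ) :
    ∑ z : Fin 22 → Fin 22 × (Fin 6 → P),
        (∏ v, hostM P ε (z v)) * ∏ e : Fin 24, hostW ε g s (z (src e)) (z (tgt e)) =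
      ∑ φ : Fin 22 → Fin 22, (∏ v, mu ε (φ v)) *
        ((∑ Z : Fin 6 → Fin 4 → D, term rk γ ε (opt φ) Z) / (Fintype.card D : ℝ) ^ 6) := by
  have hN := cardQ_pos (P := P)
  have hND : (Fintype.card (Fin 6 → P) : ℝ) = (Fintype.card D : ℝ) ^ 6 := by
    rw [G.pairing.card_eq]
    simp
  rw [← hND]
  have h1 : ∑ z : Fin 22 → Fin 22 × (Fin 6 → P),
        (∏ v, hostM P ε (z v)) * ∏ e : Fin 24, hostW ε g s (z (src e)) (z (tgt e)) =
      ∑ w : (Fin 22 → Fin 22) × (Fin 22 → Fin 6 → P),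
        ((∏ v, mu ε (w.1 v)) / (Fintype.card (Fin 6 → P) : ℝ) ^ 22) *
          ∏ e : Fin 24, ker ε g s (opt w.1 e) (w.2 (src e) - w.2 (tgt e)) := by
    refine Fintype.sum_equiv (Equiv.arrowProdEquivProdArrow _ _ _) _ _ fun z => ?_
    congr 1
    simp only [hostM]
    rw [Finset.prod_div_distrib, Finset.prod_const, Finset.card_univ, Fintype.card_fin]
    rfl
  rw [h1, Fintype.sum_prod_type]
  refine Finset.sum_congr rfl fun φ _ => ?_
  dsimp only
  rw [← Finset.mul_sum, density_eq G ε (opt φ)]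
  field_simp

theorem host_term_le (G : IsGeo χ rk g s γ C c t) (hc : 0 ≤ c) {ε : ℝ} (h0 : 0 < ε) (h1 : ε ≤ 1)
    (φ : Fin 22 → Fin 22) :
    (∏ v, mu ε (φ v)) *
        ((∑ Z : Fin 6 → Fin 4 → D, term rk γ ε (opt φ) Z) / (Fintype.card D : ℝ) ^ 6) ≤
      (∏ v, mu ε (φ v)) * (1 + 36 * C ^ 6 * t) + ε ^ 1011 / zs ε ^ 22 * C ^ 6 -
        if φ = autV 0 then ε ^ 1010 / zs ε ^ 22 * (c ^ 6 / 2 ^ 24) else 0 := by
  have hD : (0 : ℝ) < (Fintype.card D : ℝ) ^ 6 := by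
    have : (0 : ℝ) < Fintype.card D := by exact_mod_cast Fintype.card_pos
    positivity
  have hz := zs_pos h0
  have hM : 0 ≤ ∏ v, mu ε (φ v) := Finset.prod_nonneg fun v _ => mu_nonneg h0 _
  have hC : 0 ≤ C ^ 6 := by positivity
  have hη : 0 ≤ ε ^ 1011 / zs ε ^ 22 * C ^ 6 :=
    mul_nonneg (div_nonneg (pow_nonneg h0.le _) (pow_nonneg hz.le _)) hC
  have hκ : 0 ≤ ε ^ 1010 / zs ε ^ 22 * (c ^ 6 / 2 ^ 24) :=
    mul_nonneg (div_nonneg (pow_nonneg h0.le _) (pow_nonneg hz.le _))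
      (div_nonneg (pow_nonneg hc _) (pow_nonneg zero_le_two _))
  by_cases hφ : ∃ a, φ = autV a
  · obtain ⟨a, rfl⟩ := hφ
    have ho : opt (autV a) = fun e => some (autE a e) := funext fun e => edgeIdx_aut a e
    have h2 := (div_le_iff₀ hD).2 (sum_term_aut G hc h0.le h1 a)
    rw [ho]
    refine (mul_le_mul_of_nonneg_left h2 hM).trans ?_
    have h3 := weight_aut ε a
    have h4 : (∏ v, mu ε (autV a v)) *
        (1 + 36 * C ^ 6 * t - (∏ e, ε ^ ecost (autE a e)) / 2 ^ 24 * c ^ 6) =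
        (∏ v, mu ε (autV a v)) * (1 + 36 * C ^ 6 * t) -
          ε ^ 1010 / zs ε ^ 22 * (c ^ 6 / 2 ^ 24) := by
      rw [← h3]
      ring
    rw [h4]
    split_ifs <;> linarith
  · have h2 := (div_le_iff₀ hD).2 (sum_term_gen G h0.le h1 (opt φ))
    refine (mul_le_mul_of_nonneg_left h2 hM).trans ?_
    rw [if_neg fun h => hφ ⟨0, h⟩]
    have h3 := mul_le_mul_of_nonneg_right (weight_other h0 h1 φ hφ) hC
    nlinarith

theorem host_le (G : IsGeo χ rk g s γ C c t) (hc : 0 ≤ c) {ε : ℝ} (h0 : 0 < ε) (h1 : ε ≤ 1) :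
    ∑ z : Fin 22 → Fin 22 × (Fin 6 → P),
        (∏ v, hostM P ε (z v)) * ∏ e : Fin 24, hostW ε g s (z (src e)) (z (tgt e)) ≤
      1 + 36 * C ^ 6 * t + ε ^ 1010 / zs ε ^ 22 *
        (Fintype.card (Fin 22 → Fin 22) * C ^ 6 * ε - c ^ 6 / 2 ^ 24) := by
  rw [host_density G ε]
  refine (Finset.sum_le_sum fun φ _ => host_term_le G hc h0 h1 φ).trans (le_of_eq ?_)
  rw [Finset.sum_sub_distrib, Finset.sum_add_distrib, ← Finset.sum_mul, sum_prod_mu h0,
    Finset.sum_ite_eq', if_pos (mem_univ _), Finset.sum_const, Finset.card_univ, nsmul_eq_mul]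
  generalize (Fintype.card (Fin 22 → Fin 22) : ℝ) = L
  rw [show ε ^ 1011 = ε ^ 1010 * ε from pow_succ ε 1010]
  generalize ε ^ 1010 = E
  ring

end host

theorem not_kernel_ineq (C c : ℝ) (hc : 0 < c)
    (hgeo : ∀ δ : ℝ, 0 < δ → ∃ (D P : Type) (_ : AddCommGroup D) (_ : Fintype D)
      (_ : AddCommGroup P) (_ : Fintype P) (χ : D → P → ℂ) (rk : D → ℕ) (g s : P → ℝ)
      (γ : D → ℝ) (t : ℝ), t ≤ δ ∧ IsGeo χ rk g s γ C c t) :
    ∃ (U : Type) (_ : Fintype U) (m : U → ℝ) (W : U → U → ℝ), (∀ x, 0 ≤ m x) ∧ ∑ x, m x = 1 ∧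
      (∀ x y, 0 ≤ W x y) ∧ (∀ x y, W x y = W y x) ∧
      ∑ z : Fin 22 → U, (∏ v, m (z v)) * ∏ e : Fin 24, W (z (src e)) (z (tgt e)) <
        (∑ x, ∑ y, m x * m y * W x y) ^ 24 := by
  obtain ⟨L, hL⟩ : ∃ L : ℝ, L = Fintype.card (Fin 22 → Fin 22) * C ^ 6 := ⟨_, rfl⟩
  have hL0 : 0 ≤ L := by rw [hL]; positivity
  obtain ⟨κ, hκ⟩ : ∃ κ : ℝ, κ = c ^ 6 / 2 ^ 24 := ⟨_, rfl⟩
  have hκ0 : 0 < κ := by rw [hκ]; positivity
  obtain ⟨ε, h0, h1, h2⟩ : ∃ ε : ℝ, 0 < ε ∧ ε ≤ 1 ∧ L * ε ≤ κ / 2 := by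
    refine ⟨min 1 (κ / 2 / (L + 1)), lt_min one_pos (by positivity), min_le_left _ _, ?_⟩
    calc L * min 1 (κ / 2 / (L + 1)) ≤ (L + 1) * (κ / 2 / (L + 1)) :=
          mul_le_mul (by linarith) (min_le_right _ _) (le_min zero_le_one (by positivity))
            (by linarith)
      _ = κ / 2 := by field_simp
  obtain ⟨E, hE⟩ : ∃ E : ℝ, E = ε ^ 1010 / zs ε ^ 22 := ⟨_, rfl⟩
  have hE0 : 0 < E := by
    rw [hE]
    exact div_pos (pow_pos h0 _) (pow_pos (zs_pos h0) _)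
  have hC : 0 ≤ C ^ 6 := Even.pow_nonneg (by norm_num) C
  have hδ : 0 < E * κ / 4 / (36 * C ^ 6 + 1) :=
    div_pos (div_pos (mul_pos hE0 hκ0) four_pos) (by linarith)
  obtain ⟨D, P, _, _, _, _, χ, rk, g, s, γ, t, ht, G⟩ := hgeo _ hδ
  refine ⟨Fin 22 × (Fin 6 → P), inferInstance, hostM P ε, hostW ε g s, fun x => ?_,
    sum_hostM h0, fun x y => ker_nonneg h0.le h1 G.abs_s_le _ _, fun x y => ?_, ?_⟩
  · exact div_nonneg (mu_nonneg h0 _) (cardQ_pos (P := P)).le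
  · unfold hostW
    rw [edgeIdx_symm y.1 x.1, ← ker_neg ε G.g_even G.s_even, neg_sub]
  · rw [host_mean G h0, one_pow]
    refine (host_le G hc.le h0 h1).trans_lt ?_
    rw [← hL, ← hκ, ← hE]
    have h3 : 36 * C ^ 6 * t ≤ E * κ / 4 := by
      calc 36 * C ^ 6 * t ≤ (36 * C ^ 6 + 1) * (E * κ / 4 / (36 * C ^ 6 + 1)) :=
            mul_le_mul (by linarith) ht G.t_nonneg (by linarith)
        _ = E * κ / 4 := by field_simp
    have h4 : E * (L * ε - κ) ≤ E * (-(κ / 2)) := mul_le_mul_of_nonneg_left (by linarith) hE0.le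
    have h5 : 0 < E * κ := mul_pos hE0 hκ0
    linarith

end Vale.Agent.P050Z
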