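import Vale.Agent.P050Z.Defs
import Vale.Agent.P050.H398.Ord

/-! From graphs to finite weighted kernels, for the subdivided graph. -/

namespace Vale.Agent.P050Z

open Finset Vale.Agent.P050

namespace Bridge

/-- the proper colouring with two colours -/
def col : Fin 22 → Bool :=
  ![false, true, false, true, true, false, true, false, true, false, true, false, true, false,
    true, false, true, false, false, true, false, true]

/-- the edges, directed from the first colour to the second one -/
def ed (e : Fin 24) : Fin 22 × Fin 22 := if col (src e) then (tgt e, src e) else (src e, tgt e)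

theorem col_ne : ∀ e, col (src e) ≠ col (tgt e) := by decide

theorem ed_inj : Function.Injective ed := by
  have : ∀ a b, ed a = ed b → a = b := by decide +kernel
  exact fun a b h => this a b h

theorem col_adj (u v : Fin 22) (h : graphH.Adj u v) : col u ≠ col v := by
  rw [graphH, SimpleGraph.fromRel_adj] at h
  rcases h.2 with ⟨e, rfl, rfl⟩ | ⟨e, rfl, rfl⟩
  · exact col_ne e
  · exact (col_ne e).symm

theorem side_eq : Lev.sideEdges graphH col = univ.image ed := by
  ext ⟨u, v⟩
  rw [H398.mem_sideEdges, mem_image]
  constructor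
  · rintro ⟨h, hu, hv⟩
    rw [graphH, SimpleGraph.fromRel_adj] at h
    rcases h.2 with ⟨e, h1, h2⟩ | ⟨e, h1, h2⟩
    · refine ⟨e, mem_univ _, ?_⟩
      simp only at h1 h2 hu hv
      simp [ed, h1, h2, hu]
    · refine ⟨e, mem_univ _, ?_⟩
      simp only at h1 h2 hu hv
      simp [ed, h1, h2, hv]
  · rintro ⟨e, -, he⟩
    have hne := col_ne e
    have hne' : src e ≠ tgt e := fun h => hne (by rw [h])
    unfold ed at he
    by_cases hc : col (src e) = true
    · rw [if_pos hc] at he
      obtain ⟨rfl, rfl⟩ := Prod.mk.inj he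
      refine ⟨?_, ?_, hc⟩
      · rw [graphH, SimpleGraph.fromRel_adj]
        exact ⟨hne'.symm, Or.inr ⟨e, rfl, rfl⟩⟩
      · rw [hc] at hne
        simpa using hne.symm
    · rw [if_neg hc] at he
      obtain ⟨rfl, rfl⟩ := Prod.mk.inj he
      have hc' : col (src e) = false := by simpa using hc
      refine ⟨?_, hc', ?_⟩
      · rw [graphH, SimpleGraph.fromRel_adj]
        exact ⟨hne', Or.inl ⟨e, rfl, rfl⟩⟩
      · rw [hc'] at hne
        simpa using hne.symm

theorem card_side : (Lev.sideEdges graphH col).card = 24 := by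
  rw [side_eq, card_image_of_injective _ ed_inj, card_univ, Fintype.card_fin]

end Bridge

open Bridge

theorem graphH_bipartite : graphH.IsBipartite := by
  have c : graphH.Coloring Bool := SimpleGraph.Coloring.mk col fun {u v} h => col_adj u v h
  simpa using c.colorable

theorem graphH_card_edges : Nat.card graphH.edgeSet = 24 := by
  rw [← card_side, Lev.card_sideEdges graphH col col_adj]

theorem kernel_ineq
    (hS : ∀ (X : Type) [Finite X] [Nonempty X] (Γ : SimpleGraph X),
      edgeDensity Γ ^ Nat.card graphH.edgeSet ≤ homDensity graphH Γ)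
    (U : Type) [Fintype U] (m : U → ℝ) (W : U → U → ℝ) (hm : ∀ x, 0 ≤ m x)
    (hm1 : ∑ x, m x = 1) (hW : ∀ x y, 0 ≤ W x y) (hWs : ∀ x y, W x y = W y x) :
    (∑ x, ∑ y, m x * m y * W x y) ^ 24 ≤
      ∑ z : Fin 22 → U, (∏ v, m (z v)) * ∏ e : Fin 24, W (z (src e)) (z (tgt e)) := by
  have h := H398.wsid_of_ordinary (G := graphH) (s := col) col_adj hS U m W hm hm1 hW hWs
  rw [card_side, side_eq] at h
  refine h.trans (le_of_eq (sum_congr rfl fun z _ => ?_))
  congr 1
  rw [prod_image fun a _ b _ hab => ed_inj hab]
  refine prod_congr rfl fun e _ => ?_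
  unfold ed
  split_ifs
  · exact hWs _ _
  · rfl

end Vale.Agent.P050Z
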