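import Mathlib.FieldTheory.Finiteness
import Mathlib.LinearAlgebra.BilinearForm.Orthogonal
import Mathlib.LinearAlgebra.FiniteDimensional.Lemmas
import Mathlib.Combinatorics.Enumerative.DoubleCounting
import Mathlib.Data.Sym.Card
import Mathlib.Data.Set.Card
import Mathlib.Data.SetLike.Fintype
import Mathlib.Tactic

/-! Counting subspaces and symmetric bilinear forms over a finite field. -/

namespace Vale.Agent.P050Z

open Finset Module

theorem ncard_le_mul {α β : Type} [Finite α] [Finite β] (S : Set α) (T : Set β) (f : α → β)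
    (hf : ∀ a ∈ S, f a ∈ T) (n : ℕ) (hn : ∀ b ∈ T, {a | a ∈ S ∧ f a = b}.ncard ≤ n) :
    S.ncard ≤ n * T.ncard := by
  classical
  have := Fintype.ofFinite α
  have := Fintype.ofFinite β
  rw [Set.ncard_eq_toFinset_card' S, Set.ncard_eq_toFinset_card' T]
  refine Finset.card_le_mul_card_image_of_maps_to (f := f) (by simpa using hf) n ?_
  intro b hb
  have h := hn b (by simpa using hb)
  rw [Set.ncard_eq_toFinset_card'] at h
  refine le_trans (le_of_eq ?_) h
  congr 1
  ext a
  simp

variable {F V : Type} [Field F] [Fintype F] [AddCommGroup V] [Module F V] [Finite V]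

theorem ncard_submodule (K : Submodule F V) :
    (K : Set V).ncard = Fintype.card F ^ finrank F K := by
  classical
  have := Fintype.ofFinite V
  rw [← Module.card_eq_pow_finrank (K := F) (V := K), ← Nat.card_eq_fintype_card]
  rfl

omit [Fintype F] in
theorem finrank_sup_span {A : Submodule F V} {v : V} (hv : v ∉ A) :
    finrank F ↥(A ⊔ Submodule.span F {v}) = finrank F A + 1 := by
  have hv0 : v ≠ 0 := fun h => hv (h ▸ A.zero_mem)
  have h1 := Submodule.finrank_sup_add_finrank_inf_eq A (Submodule.span F {v})
  have h2 : A ⊓ Submodule.span F {v} = ⊥ :=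
    disjoint_iff.1 ((Submodule.disjoint_span_singleton' hv0).2 hv)
  rw [h2, finrank_bot, add_zero, finrank_span_singleton hv0] at h1
  exact h1

/-- the number of subspaces of a given dimension between two subspaces -/
theorem ncard_between (B : Submodule F V) (k j : ℕ) : ∀ A : Submodule F V,
    finrank F A + j = k →
    {K : Submodule F V | A ≤ K ∧ K ≤ B ∧ finrank F K = k}.ncard ≤
      (2 * Fintype.card F ^ (finrank F B - k)) ^ j := by
  classical
  have := Fintype.ofFinite V
  induction j with
  | zero =>
    intro A hA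
    rw [pow_zero]
    refine (Set.ncard_le_one_iff_eq (Set.toFinite _)).2 ?_
    by_cases h : A ≤ B
    · right
      refine ⟨A, ?_⟩
      ext K
      simp only [Set.mem_ofPred_eq, Set.mem_singleton_iff]
      constructor
      · rintro ⟨h1, -, h3⟩
        exact (Submodule.eq_of_le_of_finrank_eq h1 (by omega)).symm
      · rintro rfl
        exact ⟨le_rfl, h, by omega⟩
    · left
      ext K
      simp only [Set.mem_ofPred_eq, Set.mem_empty_iff_false, iff_false]
      rintro ⟨h1, h2, -⟩
      exact h (h1.trans h2)
  | succ j ih =>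
    intro A hA
    set q := Fintype.card F with hq
    have hq2 : 2 ≤ q := Fintype.one_lt_card
    by_cases hkB : finrank F B < k
    · have : {K : Submodule F V | A ≤ K ∧ K ≤ B ∧ finrank F K = k} = ∅ := by
        ext K
        simp only [Set.mem_ofPred_eq, Set.mem_empty_iff_false, iff_false]
        rintro ⟨-, h2, h3⟩
        have := Submodule.finrank_mono h2
        omega
      rw [this, Set.ncard_empty]
      exact Nat.zero_le _
    push Not at hkB
    set S := {K : Submodule F V | A ≤ K ∧ K ≤ B ∧ finrank F K = k} with hS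
    set N := (2 * q ^ (finrank F B - k)) ^ j with hN
    have key : #S.toFinset * (q ^ k - q ^ finrank F A) ≤ #((B : Set V).toFinset) * N := by
      refine Finset.card_mul_le_card_mul (fun K v => v ∈ K ∧ v ∉ A) ?_ ?_
      · intro K hK
        rw [Set.mem_toFinset] at hK
        obtain ⟨h1, h2, h3⟩ := hK
        have e : Finset.bipartiteAbove (fun (K : Submodule F V) v => v ∈ K ∧ v ∉ A)
            ((B : Set V).toFinset) K = (K : Set V).toFinset \ (A : Set V).toFinset := by
          ext v
          simp only [Finset.mem_bipartiteAbove, Set.mem_toFinset, SetLike.mem_coe,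
            Finset.mem_sdiff]
          exact ⟨fun h => h.2, fun h => ⟨h2 h.1, h⟩⟩
        rw [e, Finset.card_sdiff_of_subset (by simpa using h1), ← Set.ncard_eq_toFinset_card',
          ← Set.ncard_eq_toFinset_card', ncard_submodule, ncard_submodule, h3]
      · intro v hv
        by_cases hvA : v ∈ A
        · have e : Finset.bipartiteBelow (fun (K : Submodule F V) v => v ∈ K ∧ v ∉ A)
              S.toFinset v = ∅ := by
            ext K
            simp [Finset.mem_bipartiteBelow, hvA]
          rw [e, Finset.card_empty]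
          exact Nat.zero_le _
        · have h := ih (A ⊔ Submodule.span F {v}) (by rw [finrank_sup_span hvA]; omega)
          rw [Set.ncard_eq_toFinset_card'] at h
          refine le_trans (Finset.card_le_card ?_) h
          intro K hK
          simp only [Finset.mem_bipartiteBelow, Set.mem_toFinset, hS, Set.mem_ofPred_eq] at hK
          simp only [Set.mem_toFinset, Set.mem_ofPred_eq]
          refine ⟨sup_le hK.1.1 ?_, hK.1.2.1, hK.1.2.2⟩
          rw [Submodule.span_le]
          simpa using hK.2.1
    rw [← Set.ncard_eq_toFinset_card', ← Set.ncard_eq_toFinset_card', ncard_submodule] at key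
    have h1 : 2 * q ^ finrank F A ≤ q ^ k := by
      calc 2 * q ^ finrank F A ≤ q * q ^ finrank F A := by gcongr
        _ = q ^ (finrank F A + 1) := by ring
        _ ≤ q ^ k := Nat.pow_le_pow_right (by omega) (by omega)
    have h2 : q ^ k ≤ 2 * (q ^ k - q ^ finrank F A) := by omega
    have h3 : S.ncard * q ^ k ≤ (2 * q ^ (finrank F B - k)) ^ (j + 1) * q ^ k := by
      calc S.ncard * q ^ k ≤ S.ncard * (2 * (q ^ k - q ^ finrank F A)) := by gcongr
        _ = 2 * (S.ncard * (q ^ k - q ^ finrank F A)) := by ring
        _ ≤ 2 * (q ^ finrank F B * N) := by gcongr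
        _ = (2 * q ^ (finrank F B - k)) ^ (j + 1) * q ^ k := by
          have : q ^ finrank F B = q ^ (finrank F B - k) * q ^ k := by
            rw [← pow_add]; congr 1; omega
          rw [this, hN]; ring
    exact Nat.le_of_mul_le_mul_right h3 (by positivity)

variable (F V) in
/-- symmetric bilinear forms -/
def SB : Submodule F (LinearMap.BilinForm F V) where
  carrier := {B | ∀ u v, B u v = B v u}
  add_mem' := fun {A B} hA hB u v => by
    simp only [LinearMap.add_apply]; rw [hA u v, hB u v]
  zero_mem' := fun _ _ => rfl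
  smul_mem' := fun c B hB u v => by
    simp only [LinearMap.smul_apply]; rw [hB u v]

instance sbAddCommGroup : AddCommGroup (SB F V) :=
  @Submodule.addCommGroup F (LinearMap.BilinForm F V) _ LinearMap.addCommGroup _ (SB F V)

omit [Fintype F] [Finite V] in
@[simp] theorem sb_sub_apply (A B : SB F V) (u v : V) :
    (A - B).1 u v = A.1 u v - B.1 u v := rfl

omit [Fintype F] [Finite V] in
@[simp] theorem sb_add_apply (A B : SB F V) (u v : V) :
    (A + B).1 u v = A.1 u v + B.1 u v := rfl

omit [Fintype F] [Finite V] in
@[simp] theorem sb_neg_apply (A : SB F V) (u v : V) : (-A).1 u v = -A.1 u v := rfl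

omit [Fintype F] [Finite V] in
@[simp] theorem sb_smul_apply (c : F) (A : SB F V) (u v : V) :
    (c • A).1 u v = c * A.1 u v := rfl

omit [Fintype F] [Finite V] in
@[simp] theorem sb_zero_apply (u v : V) : (0 : SB F V).1 u v = 0 := rfl

instance : Finite (LinearMap.BilinForm F V) :=
  Finite.of_injective (fun B : LinearMap.BilinForm F V => fun u v => B u v)
    fun _ _ h => LinearMap.ext fun u => LinearMap.ext fun v => congrFun (congrFun h u) v

/-- the kernel of a symmetric form -/
def kr (B : SB F V) : Submodule F V := LinearMap.ker B.1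

omit [Fintype F] [Finite V] in
theorem mem_kr {B : SB F V} {u : V} : u ∈ kr B ↔ ∀ v, B.1 u v = 0 := by
  unfold kr
  rw [LinearMap.mem_ker]
  exact ⟨fun h v => by rw [h]; rfl, fun h => LinearMap.ext h⟩

omit [Fintype F] [Finite V] in
theorem sb_symm (B : SB F V) (u v : V) : B.1 u v = B.1 v u := B.2 u v

/-- the number of symmetric forms that vanish on a subspace of codimension at most `c` -/
theorem ncard_vanish (T : Submodule F V) (c : ℕ) (hc : finrank F V ≤ finrank F T + c) :
    {B : SB F V | T ≤ kr B}.ncard ≤ Fintype.card F ^ (c * (c + 1) / 2) := by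
  classical
  obtain ⟨T', hT⟩ := T.exists_isCompl
  have hdim := Submodule.finrank_add_eq_of_isCompl hT
  set m := finrank F T' with hm
  let b := Module.finBasis F T'
  let f : SB F V → Sym2 (Fin m) → F := fun B =>
    Sym2.lift ⟨fun i j => B.1 (b i) (b j), fun i j => sb_symm B _ _⟩
  have hinj : Set.InjOn f {B : SB F V | T ≤ kr B} := by
    intro A hA B hB h
    have h1 : A.1.restrict T' = B.1.restrict T' := by
      refine LinearMap.BilinForm.ext_basis b fun i j => ?_
      exact congrFun h s(i, j)
    apply Subtype.ext
    refine LinearMap.ext fun u => LinearMap.ext fun v => ?_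
    obtain ⟨u1, hu1, u2, hu2, rfl⟩ := Submodule.mem_sup.1 (hT.sup_eq_top ▸ Submodule.mem_top :
      u ∈ T ⊔ T')
    obtain ⟨v1, hv1, v2, hv2, rfl⟩ := Submodule.mem_sup.1 (hT.sup_eq_top ▸ Submodule.mem_top :
      v ∈ T ⊔ T')
    have h2 : A.1 u2 v2 = B.1 u2 v2 := by
      have := congrArg (fun X : LinearMap.BilinForm F T' => X ⟨u2, hu2⟩ ⟨v2, hv2⟩) h1
      simpa using this
    have a1 := mem_kr.1 (hA hu1)
    have a2 := mem_kr.1 (hA hv1)
    have b1 := mem_kr.1 (hB hu1)
    have b2 := mem_kr.1 (hB hv1)
    simp only [map_add, LinearMap.add_apply, a1, b1, sb_symm A u2 v1, sb_symm B u2 v1, a2, b2, h2]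
  have h3 : {B : SB F V | T ≤ kr B}.ncard ≤ (Set.univ : Set (Sym2 (Fin m) → F)).ncard :=
    Set.ncard_le_ncard_of_injOn f (fun _ _ => Set.mem_univ _) hinj
  rw [Set.ncard_univ, Nat.card_eq_fintype_card, Fintype.card_fun, Sym2.card,
    Fintype.card_fin, Nat.choose_two_right] at h3
  refine h3.trans (Nat.pow_le_pow_right Fintype.card_pos ?_)
  refine Nat.div_le_div_right ?_
  have : m ≤ c := by omega
  simp only [Nat.add_sub_cancel]
  nlinarith

end Vale.Agent.P050Z
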