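import Vale.Agent.P050Z.Count1

/-! The number of symmetric forms with given rank and given rank distance from a fixed form. -/

namespace Vale.Agent.P050Z

open Finset Module

variable {F V : Type} [Field F] [Fintype F] [AddCommGroup V] [Module F V] [Finite V]

/-- the rank of a symmetric form -/
noncomputable def rk (B : SB F V) : ℕ := finrank F V - finrank F (kr B)

omit [Fintype F] in
theorem rk_add (B : SB F V) : rk B + finrank F (kr B) = finrank F V := by
  have := Submodule.finrank_le (kr B)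
  unfold rk
  omega

omit [Fintype F] [Finite V] in
theorem kr_neg (B : SB F V) : kr (-B) = kr B := by
  ext u
  simp [mem_kr]

omit [Fintype F] [Finite V] in
theorem rk_neg (B : SB F V) : rk (-B) = rk B := by
  unfold rk
  rw [kr_neg]

omit [Fintype F] [Finite V] in
theorem rk_sub_comm (A B : SB F V) : rk (A - B) = rk (B - A) := by
  rw [← rk_neg, neg_sub]

omit [Fintype F] [Finite V] in
theorem kr_zero : kr (0 : SB F V) = ⊤ := by
  ext u
  simp [mem_kr]

omit [Fintype F] in
theorem rk_eq_zero (B : SB F V) : rk B = 0 ↔ B = 0 := by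
  constructor
  · intro h
    have h1 := rk_add B
    have h2 : kr B = ⊤ := Submodule.eq_top_of_finrank_eq (by omega)
    apply Subtype.ext
    refine LinearMap.ext fun u => LinearMap.ext fun v => ?_
    exact mem_kr.1 (h2 ▸ Submodule.mem_top : u ∈ kr B) v
  · rintro rfl
    unfold rk
    rw [kr_zero, finrank_top, Nat.sub_self]

omit [Fintype F] [Finite V] in
theorem inf_kr_sub (Z X : SB F V) : kr Z ⊓ kr (Z - X) = kr Z ⊓ kr X := by
  ext u
  simp only [Submodule.mem_inf, mem_kr, sb_sub_apply]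
  constructor
  · rintro ⟨h1, h2⟩
    refine ⟨h1, fun v => ?_⟩
    have := h2 v
    rw [h1 v] at this
    simpa using this
  · rintro ⟨h1, h2⟩
    exact ⟨h1, fun v => by rw [h1 v, h2 v, sub_zero]⟩

omit [Fintype F] [Finite V] in
theorem inf_kr_sub' (Z X : SB F V) : kr (Z - X) ⊓ kr X = kr Z ⊓ kr X := by
  ext u
  simp only [Submodule.mem_inf, mem_kr, sb_sub_apply]
  constructor
  · rintro ⟨h1, h2⟩
    refine ⟨fun v => ?_, h2⟩
    have := h1 v
    rw [h2 v] at this
    simpa using this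
  · rintro ⟨h1, h2⟩
    exact ⟨fun v => by rw [h1 v, h2 v, sub_zero], h2⟩

omit [Fintype F] [Finite V] in
theorem kr_sub_le_orth (Z X : SB F V) : kr (Z - X) ≤ X.1.orthogonal (kr Z) := by
  intro v hv
  rw [LinearMap.BilinForm.mem_orthogonal_iff]
  intro u hu
  have h1 := mem_kr.1 hv u
  have h2 := mem_kr.1 hu v
  simp only [sb_sub_apply] at h1
  rw [sb_symm Z v u, h2, sb_symm X v u] at h1
  simpa using h1

omit [Fintype F] [Finite V] in
theorem kr_le_orth (X : SB F V) (K : Submodule F V) : kr X ≤ X.1.orthogonal K := by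
  intro v hv
  rw [LinearMap.BilinForm.mem_orthogonal_iff]
  intro u _
  rw [sb_symm X u v]
  exact mem_kr.1 hv u

omit [Fintype F] in
theorem finrank_orth (X : SB F V) (K : Submodule F V) :
    finrank F K + finrank F (X.1.orthogonal K) = finrank F V + finrank F ↥(K ⊓ kr X) :=
  LinearMap.BilinForm.finrank_add_finrank_orthogonal' K

omit [Fintype F] in
/-- the constraints on the codimension `d` of the common kernel -/
theorem feas_of (X Z : SB F V) {d : ℕ} (hd : finrank F ↥(kr Z ⊓ kr X) + d = finrank F V) :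
    rk X ≤ d ∧ rk Z ≤ d ∧ rk (Z - X) ≤ d ∧ d ≤ finrank F V ∧ d ≤ rk Z + rk (Z - X) ∧
      2 * d ≤ rk X + rk Z + rk (Z - X) := by
  have a1 := rk_add X
  have a2 := rk_add Z
  have a3 := rk_add (Z - X)
  have b1 : finrank F ↥(kr Z ⊓ kr X) ≤ finrank F (kr X) := Submodule.finrank_mono inf_le_right
  have b2 : finrank F ↥(kr Z ⊓ kr X) ≤ finrank F (kr Z) := Submodule.finrank_mono inf_le_left
  have b3 : finrank F ↥(kr Z ⊓ kr X) ≤ finrank F (kr (Z - X)) := by
    rw [← inf_kr_sub]
    exact Submodule.finrank_mono inf_le_right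
  have c1 := Submodule.finrank_sup_add_finrank_inf_eq (kr Z) (kr (Z - X))
  rw [inf_kr_sub] at c1
  have c2 := Submodule.finrank_le (kr Z ⊔ kr (Z - X))
  have c3 := Submodule.finrank_sup_add_finrank_inf_eq (kr (Z - X)) (kr X)
  rw [inf_kr_sub'] at c3
  have c4 : finrank F ↥(kr (Z - X) ⊔ kr X) ≤ finrank F (X.1.orthogonal (kr Z)) :=
    Submodule.finrank_mono (sup_le (kr_sub_le_orth Z X) (kr_le_orth X _))
  have c5 := finrank_orth X (kr Z)
  omega

/-- the exponent in the count of `ncard_tri` -/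
def triExp (n t s r r' d : ℕ) : ℕ :=
  (d - s) * (n - d) + (t + r - n) * (d - r) + (r + r' - d) * (d - r') +
    (r + r' - d) * (r + r' - d + 1) / 2

/-- The forms `Z` with rank `r`, with `Z - X` of rank `r'`, with common kernel of codimension `d`
and with kernel inside `T`. -/
theorem ncard_tri (X : SB F V) (T : Submodule F V) (r r' d : ℕ) :
    {Z : SB F V | rk Z = r ∧ rk (Z - X) = r' ∧ finrank F ↥(kr Z ⊓ kr X) + d = finrank F V ∧
      kr Z ≤ T}.ncard ≤
      2 ^ (3 * finrank F V) *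
        Fintype.card F ^ triExp (finrank F V) (finrank F T) (rk X) r r' d := by
  set n := finrank F V with hn
  set q := Fintype.card F with hq
  set S := {Z : SB F V | rk Z = r ∧ rk (Z - X) = r' ∧ finrank F ↥(kr Z ⊓ kr X) + d = n ∧
      kr Z ≤ T} with hS
  rcases S.eq_empty_or_nonempty with h0 | ⟨Z0, hZ0⟩
  · rw [h0, Set.ncard_empty]
    exact Nat.zero_le _
  obtain ⟨f1, f2, f3, f4, f5, -⟩ := feas_of X Z0 hZ0.2.2.1
  rw [hZ0.1] at f2 f5
  rw [hZ0.2.1] at f3 f5
  rw [← hn] at f4
  have aX := rk_add X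
  rw [← hn] at aX
  set c := r + r' - d with hc
  -- the innermost count
  have h3 : ∀ K K' : Submodule F V, finrank F K + r = n → finrank F K' + r' = n →
      finrank F ↥(K ⊓ K') + d = n →
      {Z : SB F V | kr Z = K ∧ kr (Z - X) = K'}.ncard ≤ q ^ (c * (c + 1) / 2) := by
    intro K K' hK hK' hKK'
    rcases {Z : SB F V | kr Z = K ∧ kr (Z - X) = K'}.eq_empty_or_nonempty with h0 | ⟨Z1, hZ1⟩
    · rw [h0, Set.ncard_empty]
      exact Nat.zero_le _
    have e1 := Submodule.finrank_sup_add_finrank_inf_eq K K'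
    refine le_trans ?_ (ncard_vanish (K ⊔ K') c (by omega))
    refine Set.ncard_le_ncard_of_injOn (fun Z => Z - Z1) ?_ (fun A _ B _ h => by simpa using h)
    rintro Z ⟨h1, h2⟩
    change K ⊔ K' ≤ kr (Z - Z1)
    refine sup_le ?_ ?_
    · intro u hu
      have a := mem_kr.1 (h1 ▸ hu : u ∈ kr Z)
      have b := mem_kr.1 (hZ1.1 ▸ hu : u ∈ kr Z1)
      refine mem_kr.2 fun v => ?_
      simp [a v, b v]
    · intro u hu
      have a := mem_kr.1 (h2 ▸ hu : u ∈ kr (Z - X))
      have b := mem_kr.1 (hZ1.2 ▸ hu : u ∈ kr (Z1 - X))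
      refine mem_kr.2 fun v => ?_
      have a' := a v
      have b' := b v
      simp only [sb_sub_apply] at a' b' ⊢
      linear_combination a' - b'
  -- the middle count
  have h2 : ∀ K0 K : Submodule F V, finrank F K0 + d = n → finrank F K + r = n →
      K ⊓ kr X = K0 →
      {Z : SB F V | kr Z = K ∧ rk (Z - X) = r'}.ncard ≤
        q ^ (c * (c + 1) / 2) * (2 * q ^ c) ^ (d - r') := by
    intro K0 K hK0 hK hKK
    have e1 := finrank_orth X K
    rw [hKK, ← hn] at e1
    have hb := ncard_between (X.1.orthogonal K) (n - r') (d - r') K0 (by omega)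
    have e2 : finrank F (X.1.orthogonal K) - (n - r') = c := by omega
    rw [e2] at hb
    refine le_trans (ncard_le_mul _
      {K' : Submodule F V | (K0 ≤ K' ∧ K' ≤ X.1.orthogonal K ∧ finrank F K' = n - r') ∧
        K ⊓ K' = K0} (fun Z => kr (Z - X)) ?_ (q ^ (c * (c + 1) / 2)) ?_) ?_
    · rintro Z ⟨h1, h2⟩
      have a := rk_add (Z - X)
      have b : K ⊓ kr (Z - X) = K0 := by rw [← h1, inf_kr_sub, h1, hKK]
      refine ⟨⟨?_, ?_, by omega⟩, b⟩
      · rw [← b]
        exact inf_le_right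
      · rw [← h1]
        exact kr_sub_le_orth Z X
    · rintro K' ⟨⟨-, -, h3'⟩, h4⟩
      refine le_trans (Set.ncard_le_ncard ?_) (h3 K K' hK (by omega) (by rw [h4]; exact hK0))
      rintro Z ⟨⟨h1, -⟩, h2⟩
      exact ⟨h1, h2⟩
    · gcongr
      exact le_trans (Set.ncard_le_ncard fun K' h => h.1) hb
  -- the outer counts
  have h1 : ∀ K0 : Submodule F V, finrank F K0 + d = n →
      {Z : SB F V | Z ∈ S ∧ kr Z ⊓ kr X = K0}.ncard ≤
        q ^ (c * (c + 1) / 2) * (2 * q ^ c) ^ (d - r') *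
          (2 * q ^ (finrank F T + r - n)) ^ (d - r) := by
    intro K0 hK0
    have hb := ncard_between T (n - r) (d - r) K0 (by omega)
    have e2 : finrank F T - (n - r) = finrank F T + r - n := by omega
    rw [e2] at hb
    refine le_trans (ncard_le_mul _
      {K : Submodule F V | (K0 ≤ K ∧ K ≤ T ∧ finrank F K = n - r) ∧ K ⊓ kr X = K0}
      (fun Z => kr Z) ?_ (q ^ (c * (c + 1) / 2) * (2 * q ^ c) ^ (d - r')) ?_) ?_
    · rintro Z ⟨⟨h1, -, -, h4⟩, h5⟩
      have a := rk_add Z
      refine ⟨⟨?_, h4, by omega⟩, h5⟩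
      rw [← h5]
      exact inf_le_left
    · rintro K ⟨⟨-, -, h3'⟩, h4⟩
      refine le_trans (Set.ncard_le_ncard ?_) (h2 K0 K hK0 (by omega) h4)
      rintro Z ⟨⟨⟨-, h1, -⟩, -⟩, h2⟩
      exact ⟨h2, h1⟩
    · gcongr
      exact le_trans (Set.ncard_le_ncard fun K' h => h.1) hb
  have hb := ncard_between (kr X) (n - d) (n - d) ⊥ (by simp)
  have e2 : finrank F (kr X) - (n - d) = d - rk X := by omega
  rw [e2] at hb
  refine le_trans (ncard_le_mul S
    {K0 : Submodule F V | ⊥ ≤ K0 ∧ K0 ≤ kr X ∧ finrank F K0 = n - d}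
    (fun Z => kr Z ⊓ kr X) ?_ (q ^ (c * (c + 1) / 2) * (2 * q ^ c) ^ (d - r') *
      (2 * q ^ (finrank F T + r - n)) ^ (d - r)) ?_) ?_
  · rintro Z ⟨-, -, h3', -⟩
    exact ⟨bot_le, inf_le_right, by omega⟩
  · rintro K0 ⟨-, -, h3'⟩
    exact h1 K0 (by omega)
  · refine le_trans (Nat.mul_le_mul_left _ hb) ?_
    unfold triExp
    rw [← hc]
    simp only [mul_pow, ← pow_mul]
    have e3 : (2 : ℕ) ^ (d - r') * 2 ^ (d - r) * 2 ^ (n - d) ≤ 2 ^ (3 * n) := by
      rw [← pow_add, ← pow_add]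
      exact Nat.pow_le_pow_right (by norm_num) (by omega)
    calc _ = (2 ^ (d - r') * 2 ^ (d - r) * 2 ^ (n - d)) *
          q ^ ((d - rk X) * (n - d) + (finrank F T + r - n) * (d - r) + c * (d - r') +
            c * (c + 1) / 2) := by
          simp only [pow_add]
          ring
      _ ≤ _ := by gcongr

end Vale.Agent.P050Z
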