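import Vale.Agent.P050Z.Table

/-! The number of quadruples of symmetric forms with a given rank pattern. -/

namespace Vale.Agent.P050Z

open Finset Module

theorem ncard_sigma {α β : Type} [Finite α] [Finite β] (P : α → Prop) (Q : α → β → Prop)
    (m n : ℕ) (h1 : {a | P a}.ncard ≤ m) (h2 : ∀ a, P a → {b | Q a b}.ncard ≤ n) :
    {x : α × β | P x.1 ∧ Q x.1 x.2}.ncard ≤ n * m := by
  refine le_trans (ncard_le_mul _ {a | P a} Prod.fst (fun x hx => hx.1) n ?_)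
    (Nat.mul_le_mul_left _ h1)
  intro a ha
  refine le_trans ?_ (h2 a ha)
  refine Set.ncard_le_ncard_of_injOn Prod.snd ?_ ?_
  · rintro ⟨x, y⟩ ⟨⟨-, h⟩, rfl⟩
    exact h
  · rintro ⟨x, y⟩ ⟨-, rfl⟩ ⟨x', y'⟩ ⟨-, h⟩ h'
    simp only at h h'
    rw [h, h']

theorem ncard_quad {D : Type} [AddCommGroup D] [Finite D] (P1 : D → Prop) (P2 : D → D → Prop)
    (P3 : D → D → D → Prop) (n1 n2 n3 : ℕ) (h1 : {A | P1 A}.ncard ≤ n1)
    (h2 : ∀ A, P1 A → {B | P2 A B}.ncard ≤ n2)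
    (h3 : ∀ A B, P1 A → P2 A B → {Y | P3 A B Y}.ncard ≤ n3) (x y z w : Fin 4)
    (hc : ∀ f, f = x ∨ f = y ∨ f = z ∨ f = w) :
    {Z : Fin 4 → D | P1 (Z y - Z x) ∧ P2 (Z y - Z x) (Z z - Z x) ∧
      P3 (Z y - Z x) (Z z - Z x) (Z w - Z x)}.ncard ≤ Nat.card D * (n3 * (n2 * n1)) := by
  have a2 := ncard_sigma P1 P2 n1 n2 h1 h2
  have a3 := ncard_sigma (fun v : D × D => P1 v.1 ∧ P2 v.1 v.2) (fun v Y => P3 v.1 v.2 Y) _ n3 a2
    (fun v hv => h3 v.1 v.2 hv.1 hv.2)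
  have a4 := ncard_sigma (fun v : (D × D) × D => (P1 v.1.1 ∧ P2 v.1.1 v.1.2) ∧ P3 v.1.1 v.1.2 v.2)
    (fun _ (_ : D) => True) _ (Nat.card D) a3 (fun _ _ => by simp)
  refine le_trans ?_ a4
  refine Set.ncard_le_ncard_of_injOn
    (fun Z => (((Z y - Z x, Z z - Z x), Z w - Z x), Z x)) ?_ ?_
  · rintro Z ⟨b1, b2, b3⟩
    exact ⟨⟨⟨b1, b2⟩, b3⟩, trivial⟩
  · intro Z _ Z' _ h
    simp only [Prod.mk.injEq] at h
    obtain ⟨⟨⟨e1, e2⟩, e3⟩, e4⟩ := h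
    rw [e4] at e1 e2 e3
    funext f
    rcases hc f with rfl | rfl | rfl | rfl
    · exact e4
    · exact sub_left_injective e1
    · exact sub_left_injective e2
    · exact sub_left_injective e3

variable {F V : Type} [Field F] [Fintype F] [AddCommGroup V] [Module F V] [Finite V]

omit [Fintype F] [Finite V] in
theorem rk_le (h6 : finrank F V = 6) (B : SB F V) : rk B < 7 := by
  unfold rk
  omega

omit [Fintype F] in
theorem exists_codim (X Z : SB F V) : ∃ d, finrank F ↥(kr Z ⊓ kr X) + d = finrank F V :=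
  ⟨_, Nat.add_sub_cancel' (Submodule.finrank_le _)⟩

omit [Fintype F] in
theorem mtab_ne_zero (h6 : finrank F V = 6) (X Z : SB F V) :
    mtab (rk X) (rk Z) (rk (Z - X)) ≠ 0 := by
  obtain ⟨d, hd⟩ := exists_codim X Z
  obtain ⟨f1, f2, f3, f4, f5, f6⟩ := feas_of X Z hd
  have := mtab_spec _ (rk_le h6 X) _ (rk_le h6 Z) _ (rk_le h6 (Z - X)) d (by omega) f1 f2 f3 f5 f6
  omega

theorem ncard_two (h6 : finrank F V = 6) (X : SB F V) (r r' : ℕ) :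
    {Z : SB F V | rk Z = r ∧ rk (Z - X) = r'}.ncard ≤
      2 ^ 21 * Fintype.card F ^ (mtab (rk X) r r' - 1) := by
  have h := ncard_le_mul {Z : SB F V | rk Z = r ∧ rk (Z - X) = r'} (Set.univ : Set (Fin 7))
    (fun Z => ⟨6 - finrank F ↥(kr Z ⊓ kr X), by omega⟩) (fun _ _ => Set.mem_univ _)
    (2 ^ 18 * Fintype.card F ^ (mtab (rk X) r r' - 1)) ?_
  · rw [Set.ncard_univ, Nat.card_eq_fintype_card, Fintype.card_fin] at h
    refine h.trans ?_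
    nlinarith [Nat.zero_le (Fintype.card F ^ (mtab (rk X) r r' - 1))]
  · intro d _
    rcases {Z : SB F V | Z ∈ {Z : SB F V | rk Z = r ∧ rk (Z - X) = r'} ∧
      (⟨6 - finrank F ↥(kr Z ⊓ kr X), by omega⟩ : Fin 7) = d}.eq_empty_or_nonempty with
      h0 | ⟨Z0, hZ0⟩
    · rw [h0, Set.ncard_empty]
      exact Nat.zero_le _
    have key : ∀ Z : SB F V, (⟨6 - finrank F ↥(kr Z ⊓ kr X), by omega⟩ : Fin 7) = d →
        finrank F ↥(kr Z ⊓ kr X) + d = finrank F V := by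
      intro Z hZ
      have h1 := Submodule.finrank_le (kr Z ⊓ kr X)
      have h2 := congrArg Fin.val hZ
      simp only at h2
      omega
    obtain ⟨f1, f2, f3, f4, f5, f6⟩ := feas_of X Z0 (key Z0 hZ0.2)
    have g := mtab_spec _ (rk_le h6 X) _ (rk_le h6 Z0) _ (rk_le h6 (Z0 - X)) d d.2 f1 f2 f3 f5 f6
    rw [hZ0.1.1, hZ0.1.2] at g
    have h1 := ncard_tri X ⊤ r r' d
    rw [finrank_top, h6] at h1
    refine le_trans (Set.ncard_le_ncard ?_) (h1.trans ?_)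
    · rintro Z ⟨⟨a, b⟩, c⟩
      exact ⟨a, b, h6 ▸ key Z c, le_top⟩
    · exact Nat.mul_le_mul_left _ (Nat.pow_le_pow_right Fintype.card_pos (by omega))

theorem ncard_one (h6 : finrank F V = 6) (s : ℕ) :
    {A : SB F V | rk A = s}.ncard ≤ 2 ^ 21 * Fintype.card F ^ (mtab 0 s s - 1) := by
  have h := ncard_two h6 (0 : SB F V) s s
  rw [(rk_eq_zero _).2 rfl] at h
  simpa using h

theorem ncard_base (h6 : finrank F V = 6) (s a b c d : ℕ) (x y z w : Fin 4)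
    (hc : ∀ f, f = x ∨ f = y ∨ f = z ∨ f = w) :
    {Z : Fin 4 → SB F V | rk (Z y - Z x) = s ∧ rk (Z z - Z x) = a ∧ rk (Z z - Z y) = b ∧
      rk (Z w - Z x) = c ∧ rk (Z w - Z y) = d}.ncard ≤
      Nat.card (SB F V) * (2 ^ 63 * Fintype.card F ^ qexp s a b c d) := by
  have h := ncard_quad (fun A : SB F V => rk A = s) (fun A B => rk B = a ∧ rk (B - A) = b)
    (fun A _ Y => rk Y = c ∧ rk (Y - A) = d) _ _ _ (ncard_one h6 s)
    (fun A hA => hA ▸ ncard_two h6 A a b) (fun A _ hA _ => hA ▸ ncard_two h6 A c d) x y z w hc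
  simp only [sub_sub_sub_cancel_right] at h
  refine le_trans (le_of_eq ?_) (h.trans (le_of_eq ?_))
  · congr 1
    ext Z
    simp only [Set.mem_ofPred_eq, and_assoc]
  · unfold qexp
    ring

theorem ncard_pattern (h6 : finrank F V = 6) (r : Fin 6 → ℕ) :
    {Z : Fin 4 → SB F V | rks rk Z = r}.ncard ≤
      Nat.card (SB F V) *
        (2 ^ 63 * Fintype.card F ^ bexp (r 0) (r 1) (r 2) (r 3) (r 4) (r 5)) := by
  have hr : ∀ Z : Fin 4 → SB F V, rks rk Z = r → (rk (Z 2 - Z 3) = r 0 ∧ rk (Z 3 - Z 2) = r 0) ∧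
      (rk (Z 0 - Z 1) = r 1 ∧ rk (Z 1 - Z 0) = r 1) ∧
      (rk (Z 3 - Z 1) = r 2 ∧ rk (Z 1 - Z 3) = r 2) ∧
      (rk (Z 2 - Z 0) = r 3 ∧ rk (Z 0 - Z 2) = r 3) ∧
      (rk (Z 1 - Z 2) = r 4 ∧ rk (Z 2 - Z 1) = r 4) ∧
      (rk (Z 0 - Z 3) = r 5 ∧ rk (Z 3 - Z 0) = r 5) := by
    rintro Z rfl
    exact ⟨⟨rfl, rk_sub_comm _ _⟩, ⟨rfl, rk_sub_comm _ _⟩, ⟨rfl, rk_sub_comm _ _⟩,
      ⟨rfl, rk_sub_comm _ _⟩, ⟨rfl, rk_sub_comm _ _⟩, ⟨rfl, rk_sub_comm _ _⟩⟩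
  have hmin : ∀ a b N : ℕ, N ≤ Nat.card (SB F V) * (2 ^ 63 * Fintype.card F ^ a) →
      N ≤ Nat.card (SB F V) * (2 ^ 63 * Fintype.card F ^ b) →
      N ≤ Nat.card (SB F V) * (2 ^ 63 * Fintype.card F ^ min a b) := by
    intro a b N h1 h2
    rcases min_choice a b with h | h <;> rw [h] <;> assumption
  unfold bexp
  refine hmin _ _ _ (hmin _ _ _ (hmin _ _ _ ?_ ?_) (hmin _ _ _ ?_ ?_)) (hmin _ _ _ ?_ ?_)
  · refine le_trans (Set.ncard_le_ncard fun Z hZ => ?_) (ncard_base h6 _ _ _ _ _ 0 1 2 3 (by decide))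
    have := hr Z hZ
    simp only [Set.mem_ofPred_eq]
    tauto
  · refine le_trans (Set.ncard_le_ncard fun Z hZ => ?_) (ncard_base h6 _ _ _ _ _ 0 2 1 3 (by decide))
    have := hr Z hZ
    simp only [Set.mem_ofPred_eq]
    tauto
  · refine le_trans (Set.ncard_le_ncard fun Z hZ => ?_) (ncard_base h6 _ _ _ _ _ 0 3 1 2 (by decide))
    have := hr Z hZ
    simp only [Set.mem_ofPred_eq]
    tauto
  · refine le_trans (Set.ncard_le_ncard fun Z hZ => ?_) (ncard_base h6 _ _ _ _ _ 1 2 0 3 (by decide))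
    have := hr Z hZ
    simp only [Set.mem_ofPred_eq]
    tauto
  · refine le_trans (Set.ncard_le_ncard fun Z hZ => ?_) (ncard_base h6 _ _ _ _ _ 1 3 0 2 (by decide))
    have := hr Z hZ
    simp only [Set.mem_ofPred_eq]
    tauto
  · refine le_trans (Set.ncard_le_ncard fun Z hZ => ?_) (ncard_base h6 _ _ _ _ _ 2 3 0 1 (by decide))
    have := hr Z hZ
    simp only [Set.mem_ofPred_eq]
    tauto

omit [Fintype F] in
theorem chk_of (h6 : finrank F V = 6) (Z : Fin 4 → SB F V) :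
    Chk (rks rk Z 0) (rks rk Z 1) (rks rk Z 2) (rks rk Z 3) (rks rk Z 4) (rks rk Z 5) := by
  have t : ∀ x y z : Fin 4, mtab (rk (Z y - Z x)) (rk (Z z - Z x)) (rk (Z z - Z y)) ≠ 0 := by
    intro x y z
    have := mtab_ne_zero h6 (Z y - Z x) (Z z - Z x)
    rwa [sub_sub_sub_cancel_right] at this
  have e0 : rks rk Z 0 = rk (Z 3 - Z 2) := rk_sub_comm _ _
  have e1 : rks rk Z 1 = rk (Z 1 - Z 0) := rk_sub_comm _ _
  have e2 : rks rk Z 2 = rk (Z 3 - Z 1) := rfl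
  have e3 : rks rk Z 3 = rk (Z 2 - Z 0) := rfl
  have e4 : rks rk Z 4 = rk (Z 2 - Z 1) := rk_sub_comm _ _
  have e5 : rks rk Z 5 = rk (Z 3 - Z 0) := rk_sub_comm _ _
  rw [e0, e1, e2, e3, e4, e5]
  exact table_check _ (rk_le h6 _) _ (rk_le h6 _) _ (rk_le h6 _) (t 0 1 2) _ (rk_le h6 _) _
    (rk_le h6 _) (t 0 1 3) _ (rk_le h6 _) ⟨t 0 2 3, t 1 2 3⟩

/-- the last point of the pattern with all ranks 2 -/
theorem ncard_last (h6 : finrank F V = 6) (A B : SB F V) (hA : rk A = 2) (hB : rk B = 2)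
    (hAB : finrank F ↥(kr B ⊓ kr A) = 3) :
    {Y : SB F V | rk Y = 2 ∧ rk (Y - A) = 2 ∧ rk (Y - B) = 2}.ncard ≤
      2 ^ 20 * Fintype.card F ^ 6 := by
  set q := Fintype.card F with hq
  have hq1 : 1 ≤ q := Fintype.card_pos
  have kA := rk_add A
  have kB := rk_add B
  have hT := Submodule.finrank_sup_add_finrank_inf_eq (kr B) (kr A)
  have c1 := ncard_tri A ⊤ 2 2 2
  have c2 := ncard_tri A (kr B ⊔ kr A) 2 2 3
  have c3 := ncard_vanish (kr B ⊓ kr A) 3 (by omega)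
  rw [finrank_top] at c1
  have e5 : finrank F ↥(kr B ⊔ kr A) = 5 := by omega
  rw [e5] at c2
  rw [h6, hA] at c1 c2
  have v1 : triExp 6 6 2 2 2 2 = 3 := by decide
  have v2 : triExp 6 5 2 2 2 3 = 6 := by decide
  rw [v1] at c1
  rw [v2] at c2
  rw [← hq] at c1 c2 c3
  have hsub : {Y : SB F V | rk Y = 2 ∧ rk (Y - A) = 2 ∧ rk (Y - B) = 2} ⊆
      ({Z : SB F V | rk Z = 2 ∧ rk (Z - A) = 2 ∧ finrank F ↥(kr Z ⊓ kr A) + 2 = 6 ∧ kr Z ≤ ⊤} ∪
        {Z : SB F V | rk Z = 2 ∧ rk (Z - A) = 2 ∧ finrank F ↥(kr Z ⊓ kr A) + 3 = 6 ∧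
          kr Z ≤ kr B ⊔ kr A}) ∪ {Z : SB F V | kr B ⊓ kr A ≤ kr Z} := by
    rintro Y ⟨y1, y2, y3⟩
    obtain ⟨d, hd⟩ := exists_codim A Y
    obtain ⟨f1, -, -, -, -, f6⟩ := feas_of A Y hd
    obtain ⟨d', hd'⟩ := exists_codim B Y
    obtain ⟨-, -, -, -, -, g6⟩ := feas_of B Y hd'
    have kY := rk_add Y
    by_cases h2 : d = 2
    · exact Or.inl (Or.inl ⟨y1, y2, by omega, le_top⟩)
    by_cases h3 : kr Y ≤ kr B ⊔ kr A
    · exact Or.inl (Or.inr ⟨y1, y2, by omega, h3⟩)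
    right
    have l1 : kr Y ⊓ kr A ⊔ kr Y ⊓ kr B ≤ kr Y := sup_le inf_le_left inf_le_left
    have l2 : finrank F ↥(kr Y ⊓ kr A ⊔ kr Y ⊓ kr B) < finrank F (kr Y) := by
      refine Submodule.finrank_lt_finrank_of_lt (lt_of_le_of_ne l1 fun h => h3 ?_)
      rw [← h]
      exact sup_le (inf_le_right.trans le_sup_right) (inf_le_right.trans le_sup_left)
    have l3 : kr Y ⊓ kr B = kr Y ⊓ kr A ⊔ kr Y ⊓ kr B :=
      Submodule.eq_of_le_of_finrank_le le_sup_right (by omega)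
    have l4 : kr Y ⊓ kr A ≤ kr B ⊓ kr A :=
      le_inf ((le_sup_left.trans l3.ge).trans inf_le_right) inf_le_right
    have l5 : kr Y ⊓ kr A = kr B ⊓ kr A := Submodule.eq_of_le_of_finrank_le l4 (by omega)
    change kr B ⊓ kr A ≤ kr Y
    rw [← l5]
    exact inf_le_left
  refine (Set.ncard_le_ncard hsub).trans ((Set.ncard_union_le _ _).trans ?_)
  refine (Nat.add_le_add ((Set.ncard_union_le _ _).trans (Nat.add_le_add c1 c2)) c3).trans ?_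
  have : q ^ 3 ≤ q ^ 6 := Nat.pow_le_pow_right hq1 (by norm_num)
  norm_num
  omega

theorem ncard_all_two (h6 : finrank F V = 6) :
    {Z : Fin 4 → SB F V | rks rk Z = fun _ => 2}.ncard ≤
      Nat.card (SB F V) * (2 ^ 63 * Fintype.card F ^ 24) := by
  set q := Fintype.card F with hq
  have hq1 : 1 ≤ q := Fintype.card_pos
  have m1 : mtab 0 2 2 - 1 = 11 := by decide +kernel
  have m2 : mtab 2 2 2 - 1 = 7 := by decide +kernel
  have v1 : triExp 6 6 2 2 2 2 = 3 := by decide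
  have v2 : triExp 6 6 2 2 2 3 = 7 := by decide
  have c1 := ncard_one (F := F) h6 2
  rw [m1] at c1
  have c2 : ∀ d, ∀ A : SB F V, rk A = 2 → {B : SB F V | rk B = 2 ∧ rk (B - A) = 2 ∧
      finrank F ↥(kr B ⊓ kr A) + d = 6}.ncard ≤ 2 ^ 18 * q ^ triExp 6 6 2 2 2 d := by
    intro d A hA
    have := ncard_tri A ⊤ 2 2 d
    rw [finrank_top, h6, hA] at this
    simpa using this
  have a1 := ncard_quad (fun A : SB F V => rk A = 2)
    (fun A B => rk B = 2 ∧ rk (B - A) = 2 ∧ finrank F ↥(kr B ⊓ kr A) + 2 = 6)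
    (fun A _ Y => rk Y = 2 ∧ rk (Y - A) = 2) _ _ (2 ^ 21 * q ^ 7) c1 (c2 2)
    (fun A _ hA _ => by have := ncard_two h6 A 2 2; rwa [hA, m2] at this) 0 1 2 3 (by decide)
  have a2 := ncard_quad (fun A : SB F V => rk A = 2)
    (fun A B => rk B = 2 ∧ rk (B - A) = 2 ∧ finrank F ↥(kr B ⊓ kr A) + 3 = 6)
    (fun A B Y => rk Y = 2 ∧ rk (Y - A) = 2 ∧ rk (Y - B) = 2) _ _ (2 ^ 20 * q ^ 6) c1 (c2 3)
    (fun A B hA hB => ncard_last h6 A B hA hB.1 (by omega)) 0 1 2 3 (by decide)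
  refine le_trans (Set.ncard_le_ncard ?_) ((Set.ncard_union_le _ _).trans
    ((Nat.add_le_add a1 a2).trans ?_))
  · intro Z hZ
    have e0 : rk (Z 3 - Z 2) = 2 := (rk_sub_comm _ _).trans (congrFun hZ 0)
    have e1 : rk (Z 1 - Z 0) = 2 := (rk_sub_comm _ _).trans (congrFun hZ 1)
    have e2 : rk (Z 3 - Z 1) = 2 := congrFun hZ 2
    have e3 : rk (Z 2 - Z 0) = 2 := congrFun hZ 3
    have e4 : rk (Z 2 - Z 1) = 2 := (rk_sub_comm _ _).trans (congrFun hZ 4)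
    have e5 : rk (Z 3 - Z 0) = 2 := (rk_sub_comm _ _).trans (congrFun hZ 5)
    obtain ⟨d, hd⟩ := exists_codim (Z 1 - Z 0) (Z 2 - Z 0)
    obtain ⟨f1, -, -, -, -, f6⟩ := feas_of _ _ hd
    rw [sub_sub_sub_cancel_right] at f6
    simp only [Set.mem_union, Set.mem_ofPred_eq, sub_sub_sub_cancel_right]
    by_cases h2 : d = 2
    · exact Or.inl ⟨e1, ⟨e3, e4, by omega⟩, e5, e2⟩
    · exact Or.inr ⟨e1, ⟨e3, e4, by omega⟩, e5, e2, e0⟩
  · rw [v1, v2, ← Nat.mul_add]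
    refine Nat.mul_le_mul_left _ ?_
    have : q ^ 21 ≤ q ^ 24 := Nat.pow_le_pow_right hq1 (by norm_num)
    calc _ = 2 ^ 60 * q ^ 21 + 2 ^ 59 * q ^ 24 := by ring
      _ ≤ _ := by omega

end Vale.Agent.P050Z
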