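import Vale.Agent.P050Z.Defs
import Vale.Agent.P050Z.Count2
import Mathlib.NumberTheory.GaussSum
import Mathlib.NumberTheory.LegendreSymbol.AddCharacter
import Mathlib.NumberTheory.LegendreSymbol.Complex
import Mathlib.NumberTheory.LegendreSymbol.QuadraticChar.GaussSum
import Mathlib.LinearAlgebra.QuadraticForm.Basic
import Mathlib.LinearAlgebra.Dual.Lemmas

/-! The host geometry: symmetric forms over a finite field, their dual, rank one kernels. -/

namespace Vale.Agent.P050Z

open Finset Module

variable {F V : Type} [Field F] [Fintype F] [AddCommGroup V] [Module F V] [Fintype V]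

noncomputable instance sbFintype : Fintype (SB F V) := Fintype.ofFinite _

instance sbDualFinite : Finite (Module.Dual F (SB F V)) := Module.finite_of_finite F

noncomputable instance sbDualFintype : Fintype (Module.Dual F (SB F V)) := Fintype.ofFinite _

variable (F) in
/-- a primitive additive character -/
noncomputable def psi : AddChar F ℂ := AddChar.FiniteField.primitiveChar_to_Complex F

/-- the pairing of the symmetric forms with their dual -/
noncomputable def chi (a : SB F V) (y : Module.Dual F (SB F V)) : ℂ := psi F (y a)

/-- evaluation of a form at the pair `(u, u)` -/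
def ev (u : V) : Module.Dual F (SB F V) where
  toFun B := B.1 u u
  map_add' _ _ := rfl
  map_smul' _ _ := rfl

/-- the density of the law of `d • ev u`, with `u` uniform -/
noncomputable def gk (d : F) (y : Module.Dual F (SB F V)) : ℝ :=
  (Fintype.card (Module.Dual F (SB F V)) : ℝ) / (Fintype.card V : ℝ) *
    ({u : V | d • ev u = y}.ncard : ℝ)

/-- the even part of the two kernels -/
noncomputable def gEven (ν : F) (y : Module.Dual F (SB F V)) : ℝ := (gk 1 y + gk ν y) / 2

/-- the odd part of the two kernels -/
noncomputable def gOdd (ν : F) (y : Module.Dual F (SB F V)) : ℝ := (gk 1 y - gk ν y) / 2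

/-- the normalised Gauss sum of a form -/
noncomputable def gam (a : SB F V) : ℝ :=
  (∑ u : V, psi F (a.1 u u)).re / (Fintype.card V : ℝ)

variable (F) in
/-- the number `q ^ (-1/2)` -/
noncomputable def tq : ℝ := 1 / Real.sqrt (Fintype.card F)

end Vale.Agent.P050Z
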