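import Vale.Agent.P050Z.Count3
import Vale.Agent.P050Z.GeoDefs

/-! The three bounds for the weights of functions on faces. -/

namespace Vale.Agent.P050Z

open Finset Module

variable {F V : Type} [Field F] [Fintype F] [AddCommGroup V] [Module F V] [Fintype V]

theorem tq_pos : 0 < tq F := by
  unfold tq
  have : (0 : ℝ) < Fintype.card F := by exact_mod_cast Fintype.card_pos
  positivity

theorem tq_sq : (Fintype.card F : ℝ) * tq F ^ 2 = 1 := by
  unfold tq
  have : (0 : ℝ) < Fintype.card F := by exact_mod_cast Fintype.card_pos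
  rw [div_pow, Real.sq_sqrt this.le]
  field_simp

theorem tq_le_one : tq F ≤ 1 := by
  have h1 : (1 : ℝ) ≤ Fintype.card F := by exact_mod_cast Fintype.card_pos
  have h2 := tq_sq (F := F)
  have h3 := tq_pos (F := F)
  by_contra h
  push Not at h
  nlinarith

theorem pow_mul_tq (b c k : ℕ) (h : 2 * b + k ≤ c) :
    (Fintype.card F : ℝ) ^ b * tq F ^ c ≤ tq F ^ k := by
  obtain ⟨e, rfl⟩ := Nat.exists_eq_add_of_le h
  have h1 : tq F ^ e ≤ 1 := pow_le_one₀ tq_pos.le tq_le_one
  have h2 := tq_pos (F := F)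
  calc _ = ((Fintype.card F : ℝ) * tq F ^ 2) ^ b * tq F ^ k * tq F ^ e := by ring
    _ = tq F ^ k * tq F ^ e := by rw [tq_sq, one_pow, one_mul]
    _ ≤ tq F ^ k * 1 := by gcongr
    _ = _ := mul_one _

theorem wt_eq {D : Type} [AddCommGroup D] (rk : D → ℕ) (t : ℝ) (Z : Fin 4 → D) :
    wt rk t Z = t ^ cost6 (rks rk Z 0) (rks rk Z 1) (rks rk Z 2) (rks rk Z 3) (rks rk Z 4)
      (rks rk Z 5) := by
  unfold wt cost6
  rw [Finset.prod_pow_eq_pow_sum, Fin.sum_univ_six]
  congr 1
  simp only [len, Matrix.cons_val]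
  ring

theorem sum_pattern (h6 : finrank F V = 6) (r : Fin 6 → ℕ) :
    ∑ Z : Fin 4 → SB F V with rks rk Z = r, wt rk (tq F) Z ≤ 2 ^ 63 * Fintype.card (SB F V) ∧
      ((∃ i, Bad i r) → ∑ Z : Fin 4 → SB F V with rks rk Z = r, wt rk (tq F) Z ≤
        2 ^ 63 * tq F * Fintype.card (SB F V)) := by
  have ht := tq_pos (F := F)
  have e1 : ∑ Z : Fin 4 → SB F V with rks rk Z = r, wt rk (tq F) Z =
      ({Z : Fin 4 → SB F V | rks rk Z = r}.ncard : ℝ) *
        tq F ^ cost6 (r 0) (r 1) (r 2) (r 3) (r 4) (r 5) := by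
    rw [Finset.sum_congr rfl (g := fun _ => tq F ^ cost6 (r 0) (r 1) (r 2) (r 3) (r 4) (r 5))
      fun Z hZ => by rw [wt_eq, (Finset.mem_filter.1 hZ).2], Finset.sum_const, nsmul_eq_mul,
      ← Set.ncard_coe_finset]
    congr 3
    ext Z
    simp
  rw [e1]
  rcases {Z : Fin 4 → SB F V | rks rk Z = r}.eq_empty_or_nonempty with h0 | ⟨Z0, hZ0⟩
  · rw [h0, Set.ncard_empty, Nat.cast_zero, zero_mul]
    exact ⟨by positivity, fun _ => by positivity⟩
  have hc := chk_of h6 Z0
  rw [show rks rk Z0 = r from hZ0] at hc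
  have key : ∀ b k : ℕ, {Z : Fin 4 → SB F V | rks rk Z = r}.ncard ≤
      Nat.card (SB F V) * (2 ^ 63 * Fintype.card F ^ b) →
      2 * b + k ≤ cost6 (r 0) (r 1) (r 2) (r 3) (r 4) (r 5) →
      ({Z : Fin 4 → SB F V | rks rk Z = r}.ncard : ℝ) *
        tq F ^ cost6 (r 0) (r 1) (r 2) (r 3) (r 4) (r 5) ≤
        2 ^ 63 * tq F ^ k * Fintype.card (SB F V) := by
    intro b k h1 h2
    rw [Nat.card_eq_fintype_card] at h1
    have h3 : ({Z : Fin 4 → SB F V | rks rk Z = r}.ncard : ℝ) ≤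
        Fintype.card (SB F V) * (2 ^ 63 * (Fintype.card F : ℝ) ^ b) := by exact_mod_cast h1
    have h4 := pow_mul_tq (F := F) b _ k h2
    calc _ ≤ Fintype.card (SB F V) * (2 ^ 63 * (Fintype.card F : ℝ) ^ b) *
          tq F ^ cost6 (r 0) (r 1) (r 2) (r 3) (r 4) (r 5) := by gcongr
      _ = 2 ^ 63 * ((Fintype.card F : ℝ) ^ b *
          tq F ^ cost6 (r 0) (r 1) (r 2) (r 3) (r 4) (r 5)) * Fintype.card (SB F V) := by ring
      _ ≤ _ := by gcongr
  have hp := ncard_pattern (F := F) h6 r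
  rcases hc with h | h | h
  · refine ⟨by simpa using key _ 0 hp (by omega), fun _ => by simpa using key _ 1 hp h⟩
  · have e : r = fun _ => 2 := by
      funext i
      fin_cases i
      exacts [h.1, h.2.1, h.2.2.1, h.2.2.2.1, h.2.2.2.2.1, h.2.2.2.2.2]
    subst e
    refine ⟨by simpa using key 24 0 (ncard_all_two h6) (by decide), ?_⟩
    rintro ⟨i, hi⟩
    exact absurd hi.1 (by norm_num)
  · refine ⟨by simpa using key _ 0 hp h.1, ?_⟩
    rintro ⟨i, hi⟩
    have e : ![r 0, r 1, r 2, r 3, r 4, r 5] = r := by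
      funext j
      fin_cases j <;> rfl
    exact absurd hi (e ▸ h.2 i)

theorem sum_le_of_pattern (h6 : finrank F V = 6) (P : (Fin 6 → ℕ) → Prop) [DecidablePred P]
    (f : (Fin 4 → SB F V) → ℝ) (M : ℝ) (hM : 0 ≤ M)
    (h : ∀ r, P r → ∑ Z : Fin 4 → SB F V with rks rk Z = r, f Z ≤ M) :
    ∑ Z : Fin 4 → SB F V with P (rks rk Z), f Z ≤ 7 ^ 6 * M := by
  have h1 := Finset.sum_fiberwise_of_maps_to
    (s := univ.filter fun Z : Fin 4 → SB F V => P (rks rk Z))
    (t := Fintype.piFinset fun _ : Fin 6 => range 7) (g := fun Z => rks rk Z)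
    (fun Z _ => by
      rw [Fintype.mem_piFinset]
      exact fun i => Finset.mem_range.2 (rk_le h6 _)) f
  rw [← h1]
  refine le_trans (Finset.sum_le_card_nsmul _ _ M fun r _ => ?_) ?_
  · by_cases hr : P r
    · refine le_trans (le_of_eq ?_) (h r hr)
      congr 1
      ext Z
      simp only [Finset.mem_filter, Finset.mem_univ, true_and, and_iff_right_iff_imp]
      rintro rfl
      exact hr
    · rw [Finset.sum_eq_zero]
      · exact hM
      · intro Z hZ
        simp only [Finset.mem_filter, Finset.mem_univ, true_and] at hZ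
        exact absurd (hZ.2 ▸ hZ.1) hr
  · simp only [Fintype.card_piFinset, Finset.card_range, Finset.prod_const, Finset.card_univ,
      Fintype.card_fin, nsmul_eq_mul, Nat.cast_pow, Nat.cast_ofNat, le_refl]

theorem sum_tot (h6 : finrank F V = 6) :
    ∑ Z : Fin 4 → SB F V, wt rk (tq F) Z ≤ 7 ^ 6 * 2 ^ 63 * Fintype.card (SB F V) := by
  have h := sum_le_of_pattern h6 (fun _ => True) (wt rk (tq F)) _ (by positivity)
    fun r _ => (sum_pattern (F := F) h6 r).1
  simpa [mul_assoc] using h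

theorem sum_bad (h6 : finrank F V = 6) (i : Fin 6) :
    ∑ Z : Fin 4 → SB F V with Bad i (rks rk Z), wt rk (tq F) Z ≤
      7 ^ 6 * 2 ^ 63 * tq F * Fintype.card (SB F V) := by
  have ht := tq_pos (F := F)
  have h := sum_le_of_pattern h6 (Bad i) (wt rk (tq F)) _ (by positivity)
    fun r hr => (sum_pattern (F := F) h6 r).2 ⟨i, hr⟩
  simpa [mul_assoc] using h

/-- the linear form with first coefficient 1 and other coefficients `a` -/
def ell (a : Fin 5 → F) : (Fin 6 → F) →ₗ[F] F where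
  toFun u := u 0 + ∑ j, a j * u j.succ
  map_add' u v := by
    simp only [Pi.add_apply, mul_add, Finset.sum_add_distrib]
    ring
  map_smul' c u := by
    simp only [Pi.smul_apply, smul_eq_mul, RingHom.id_apply, mul_add, Finset.mul_sum]
    congr 1
    exact Finset.sum_congr rfl fun j _ => by ring

/-- the form `c` times the square of `ell a` -/
def rho (c : F) (a : Fin 5 → F) : SB F (Fin 6 → F) :=
  ⟨c • LinearMap.BilinForm.linMulLin (ell a) (ell a), fun u v => by
    simp only [LinearMap.smul_apply, LinearMap.BilinForm.linMulLin_apply, smul_eq_mul]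
    ring⟩

omit [Fintype F] in
theorem rho_apply (c : F) (a : Fin 5 → F) (u v : Fin 6 → F) :
    (rho c a).1 u v = c * (ell a u * ell a v) := by
  simp [rho]

omit [Fintype F] in
theorem ell_pair (a : Fin 5 → F) (j : Fin 5) (x y : F) :
    ell a (x • Pi.single 0 1 + y • Pi.single j.succ 1) = x + y * a j := by
  classical
  rw [map_add, map_smul, map_smul]
  simp [ell, Pi.single_apply, (Fin.succ_ne_zero _), (Fin.succ_ne_zero j).symm]

omit [Fintype F] in
theorem rho_inj {c c' : F} {a a' : Fin 5 → F} (hc : c ≠ 0) (h : rho c a = rho c' a') :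
    c = c' ∧ a = a' := by
  have k : ∀ (j : Fin 5) (x y : F), c * (x + y * a j) = c' * (x + y * a' j) := by
    intro j x y
    have := congrArg (fun B : SB F (Fin 6 → F) => B.1 ((1 : F) • Pi.single 0 1 +
      (0 : F) • Pi.single j.succ 1) (x • Pi.single 0 1 + y • Pi.single j.succ 1)) h
    simp only [rho_apply, ell_pair] at this
    simpa using this
  have e : c = c' := by simpa using k 0 1 0
  refine ⟨e, funext fun j => ?_⟩
  have := k j 0 1
  rw [← e] at this
  simpa [hc] using this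

theorem rk_rho {c : F} (hc : c ≠ 0) (a : Fin 5 → F) : rk (rho c a) = 1 := by
  have e1 : ∀ x, ell a (x • Pi.single 0 1 + (0 : F) • Pi.single (0 : Fin 5).succ 1) = x := by
    intro x
    rw [ell_pair]
    ring
  have e : kr (rho c a) = LinearMap.ker (ell a) := by
    ext u
    rw [mem_kr, LinearMap.mem_ker]
    constructor
    · intro h
      have := h ((1 : F) • Pi.single 0 1 + (0 : F) • Pi.single (0 : Fin 5).succ 1)
      rw [rho_apply, e1] at this
      simpa [hc] using this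
    · intro h v
      rw [rho_apply, h]
      ring
  have h1 := LinearMap.finrank_range_add_finrank_ker (ell a)
  rw [LinearMap.range_eq_top.2 fun x => ⟨_, e1 x⟩, finrank_top, finrank_self] at h1
  have h2 := rk_add (rho c a)
  rw [e] at h2
  omega

theorem rk_rho_sub {c c' : F} (hc : c ≠ 0) (hc' : c' ≠ 0) {a a' : Fin 5 → F} (ha : a ≠ a') :
    rk (rho c a - rho c' a') = 2 := by
  obtain ⟨j, hj⟩ := Function.ne_iff.1 ha
  have hj' : a j - a' j ≠ 0 := sub_ne_zero.2 hj
  have e1 : ∀ x y : F, ∃ v, ell a v = x ∧ ell a' v = y := by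
    intro x y
    refine ⟨(x - (x - y) / (a j - a' j) * a j) • Pi.single 0 1 +
      ((x - y) / (a j - a' j)) • Pi.single j.succ 1, ?_, ?_⟩
    · rw [ell_pair]
      ring
    · rw [ell_pair]
      field_simp
      ring
  have e : kr (rho c a - rho c' a') = LinearMap.ker ((ell a).prod (ell a')) := by
    ext u
    rw [mem_kr, LinearMap.mem_ker]
    simp only [sb_sub_apply, rho_apply, LinearMap.prod_apply, Function.prod_apply, Prod.mk_eq_zero]
    constructor
    · intro h
      obtain ⟨v, h1, h2⟩ := e1 1 0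
      obtain ⟨w, h3, h4⟩ := e1 0 1
      have hv := h v
      have hw := h w
      rw [h1, h2] at hv
      rw [h3, h4] at hw
      exact ⟨by simpa [hc] using hv, by simpa [hc'] using hw⟩
    · rintro ⟨h1, h2⟩ v
      rw [h1, h2]
      ring
  have h1 := LinearMap.finrank_range_add_finrank_ker ((ell a).prod (ell a'))
  rw [LinearMap.range_eq_top.2 fun x => by
    obtain ⟨v, h1, h2⟩ := e1 x.1 x.2
    exact ⟨v, Prod.ext h1 h2⟩, finrank_top, Module.finrank_prod, finrank_self] at h1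
  have h2 := rk_add (rho c a - rho c' a')
  rw [e] at h2
  omega

theorem sum_pair (i : Fin 6) :
    1 / 8 * (Fintype.card (SB F (Fin 6 → F)) : ℝ) ≤
      ∑ Z : Fin 4 → SB F (Fin 6 → F) with rks rk Z = pat i 1 1, wt rk (tq F) Z := by
  classical
  have hlr : ∀ i : Fin 6, lft i ≠ rgt i := by decide
  have ho : ∀ i : Fin 6, lft (opp i) ≠ lft i ∧ lft (opp i) ≠ rgt i := by decide
  have hcost : ∀ i : Fin 6, cost6 (pat i 1 1 0) (pat i 1 1 1) (pat i 1 1 2) (pat i 1 1 3)
      (pat i 1 1 4) (pat i 1 1 5) = 24 := by decide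
  rw [Finset.sum_congr rfl (g := fun _ => tq F ^ 24)
      fun Z hZ => by rw [wt_eq, (Finset.mem_filter.1 hZ).2, hcost], Finset.sum_const, nsmul_eq_mul]
  set q := Fintype.card F with hq
  let S : Finset (SB F (Fin 6 → F) × (F × F) × (Fin 5 → F) × (Fin 5 → F)) :=
    univ ×ˢ ((univ.erase 0) ×ˢ (univ.erase 0)) ×ˢ (univ : Finset (Fin 5 → F)).offDiag
  let Φ : SB F (Fin 6 → F) × (F × F) × (Fin 5 → F) × (Fin 5 → F) → Fin 4 → SB F (Fin 6 → F) :=
    fun x f => x.1 + if f = lft i then rho x.2.1.1 x.2.2.1 else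
      if f = rgt i then rho x.2.1.2 x.2.2.2 else 0
  have hS : ∀ x ∈ S, x.2.1.1 ≠ 0 ∧ x.2.1.2 ≠ 0 ∧ x.2.2.1 ≠ x.2.2.2 := by
    intro x hx
    simpa [S, and_assoc] using hx
  have hcard : S.card ≤ (univ.filter fun Z : Fin 4 → SB F (Fin 6 → F) =>
      rks rk Z = pat i 1 1).card := by
    refine Finset.card_le_card_of_injOn Φ ?_ ?_
    · intro x hx
      obtain ⟨h1, h2, h3⟩ := hS x hx
      simp only [Finset.coe_filter, Finset.mem_univ, true_and, Set.mem_ofPred_eq]
      funext p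
      have hp := hlr p
      have hi := hlr i
      have r0 : rk (0 : SB F (Fin 6 → F)) = 0 := (rk_eq_zero _).2 rfl
      unfold rks dif pat ind
      simp only [Φ, add_sub_add_left_eq_sub]
      split_ifs with a1 a2 a3 a4 a5 a6 a7 a8
      · exact absurd (a1.trans a2.symm) hp
      · exact rk_rho_sub h1 h2 h3
      · rw [sub_zero, rk_rho h1]
      · exact rk_rho_sub h2 h1 h3.symm
      · exact absurd (a4.trans a6.symm) hp
      · rw [sub_zero, rk_rho h2]
      · rw [zero_sub, rk_neg, rk_rho h1]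
      · rw [zero_sub, rk_neg, rk_rho h2]
      · rw [sub_zero, r0]
    · rintro ⟨z, ⟨c1, c2⟩, a1, a2⟩ hx ⟨z', ⟨c1', c2'⟩, a1', a2'⟩ - h
      obtain ⟨h1, h2, -⟩ := hS _ hx
      have e0 := congrFun h (lft (opp i))
      have e1 := congrFun h (lft i)
      have e2 := congrFun h (rgt i)
      simp only [Φ, if_neg (ho i).1, if_neg (ho i).2, add_zero] at e0
      simp only [Φ, if_true, e0, add_right_inj] at e1
      simp only [Φ, if_neg (hlr i).symm, if_true, e0, add_right_inj] at e2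
      obtain ⟨rfl, rfl⟩ := rho_inj h1 e1
      obtain ⟨rfl, rfl⟩ := rho_inj h2 e2
      rw [e0]
  have hq2 : 2 ≤ q := Fintype.one_lt_card
  have hS2 : S.card = Fintype.card (SB F (Fin 6 → F)) * ((q - 1) * (q - 1) *
      (q ^ 5 * q ^ 5 - q ^ 5)) := by
    simp [S, Finset.card_product, Finset.offDiag_card, Finset.card_erase_of_mem, hq]
  have h8 : q ^ 12 ≤ 8 * ((q - 1) * (q - 1) * (q ^ 5 * q ^ 5 - q ^ 5)) := by
    have b1 : q ≤ 2 * (q - 1) := by omega
    have b2 : 2 ≤ q ^ 5 := le_trans hq2 (Nat.le_self_pow (by norm_num) q)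
    have b3 : 2 * q ^ 5 ≤ q ^ 5 * q ^ 5 := Nat.mul_le_mul_right _ b2
    have b4 : q ^ 5 * q ^ 5 ≤ 2 * (q ^ 5 * q ^ 5 - q ^ 5) := by omega
    calc q ^ 12 = q * q * (q ^ 5 * q ^ 5) := by ring
      _ ≤ (2 * (q - 1)) * (2 * (q - 1)) * (2 * (q ^ 5 * q ^ 5 - q ^ 5)) := by gcongr
      _ = _ := by ring
  have h9 : Fintype.card (SB F (Fin 6 → F)) * q ^ 12 ≤
      8 * (univ.filter fun Z : Fin 4 → SB F (Fin 6 → F) => rks rk Z = pat i 1 1).card := by
    calc _ ≤ Fintype.card (SB F (Fin 6 → F)) *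
          (8 * ((q - 1) * (q - 1) * (q ^ 5 * q ^ 5 - q ^ 5))) := by gcongr
      _ = 8 * S.card := by rw [hS2]; ring
      _ ≤ _ := by gcongr
  have h10 : (Fintype.card (SB F (Fin 6 → F)) : ℝ) * (q : ℝ) ^ 12 ≤
      8 * ((univ.filter fun Z : Fin 4 → SB F (Fin 6 → F) => rks rk Z = pat i 1 1).card : ℝ) := by
    exact_mod_cast h9
  have ht := tq_pos (F := F)
  have h11 : (q : ℝ) ^ 12 * tq F ^ 24 = 1 := by
    calc _ = ((q : ℝ) * tq F ^ 2) ^ 12 := by ring
      _ = 1 := by rw [hq, tq_sq, one_pow]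
  calc _ = 1 / 8 * ((Fintype.card (SB F (Fin 6 → F)) : ℝ) * (q : ℝ) ^ 12) * tq F ^ 24 := by
        rw [mul_assoc, mul_assoc, h11, mul_one]
    _ ≤ 1 / 8 * (8 * ((univ.filter fun Z : Fin 4 → SB F (Fin 6 → F) =>
          rks rk Z = pat i 1 1).card : ℝ)) * tq F ^ 24 := by gcongr
    _ = _ := by ring

end Vale.Agent.P050Z
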