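import Mathlib.Combinatorics.SimpleGraph.Basic
import Mathlib.Data.Complex.Basic
import Mathlib.Algebra.BigOperators.Fin
import Mathlib.Algebra.Order.BigOperators.Ring.Finset
import Mathlib.Data.Fintype.BigOperators
import Mathlib.Data.Fin.VecNotation
import Mathlib.Tactic

/-!
The complete graph on four vertices with opposite edges subdivided into paths of lengths
3, 3, 4, 4, 5, 5: vertices, edges, paths, faces, costs, and the interface to the host geometry.
-/

namespace Vale.Agent.P050Z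

open Finset

/-- first ends of the 24 edges -/
def src : Fin 24 → Fin 22 :=
  ![0, 4, 5, 2, 6, 7, 0, 8, 9, 10, 1, 11, 12, 13, 0, 14, 15, 16, 17, 1, 18, 19, 20, 21]

/-- second ends of the 24 edges -/
def tgt : Fin 24 → Fin 22 :=
  ![4, 5, 1, 6, 7, 3, 8, 9, 10, 2, 11, 12, 13, 3, 14, 15, 16, 17, 3, 18, 19, 20, 21, 2]

/-- the path that contains an edge; the paths join 01, 23, 02, 13, 03, 12 -/
def pth : Fin 24 → Fin 6 :=
  ![0, 0, 0, 1, 1, 1, 2, 2, 2, 2, 3, 3, 3, 3, 4, 4, 4, 4, 4, 5, 5, 5, 5, 5]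

/-- the face on the left of a path; face `v` is the one that misses the branch vertex `v` -/
def lft : Fin 6 → Fin 4 := ![2, 0, 3, 2, 1, 0]

/-- the face on the right of a path -/
def rgt : Fin 6 → Fin 4 := ![3, 1, 1, 0, 2, 3]

/-- the lengths of the paths -/
def len : Fin 6 → ℕ := ![3, 3, 4, 4, 5, 5]

/-- the opposite path -/
def opp : Fin 6 → Fin 6 := ![1, 0, 3, 2, 5, 4]

/-- the graph -/
def graphH : SimpleGraph (Fin 22) :=
  SimpleGraph.fromRel fun u v => ∃ e, src e = u ∧ tgt e = v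

/-- the index of the edge that joins two vertices, if there is one -/
def edgeIdx (u v : Fin 22) : Option (Fin 24) :=
  (List.finRange 24).find? fun e => (src e = u ∧ tgt e = v) ∨ (src e = v ∧ tgt e = u)

/-- cost of a vertex: 115 for the four branch vertices -/
def vcost (v : Fin 22) : ℕ := if v.val < 4 then 115 else 0

/-- cost of an edge: 0 at a branch vertex, 45 for the middle edges of the paths of length 5,
46 for the others -/
def ecost : Fin 24 → ℕ :=
  ![0, 46, 0, 0, 46, 0, 0, 46, 46, 0, 0, 46, 46, 0, 0, 46, 45, 46, 0, 0, 46, 45, 46, 0]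

/-- the four automorphisms, on vertices -/
def autV : Fin 4 → Fin 22 → Fin 22 :=
  ![![0, 1, 2, 3, 4, 5, 6, 7, 8, 9, 10, 11, 12, 13, 14, 15, 16, 17, 18, 19, 20, 21],
    ![1, 0, 3, 2, 5, 4, 7, 6, 11, 12, 13, 8, 9, 10, 18, 19, 20, 21, 14, 15, 16, 17],
    ![2, 3, 0, 1, 6, 7, 4, 5, 10, 9, 8, 13, 12, 11, 21, 20, 19, 18, 17, 16, 15, 14],
    ![3, 2, 1, 0, 7, 6, 5, 4, 13, 12, 11, 10, 9, 8, 17, 16, 15, 14, 21, 20, 19, 18]]

/-- the four automorphisms, on edges -/
def autE : Fin 4 → Fin 24 → Fin 24 :=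
  ![![0, 1, 2, 3, 4, 5, 6, 7, 8, 9, 10, 11, 12, 13, 14, 15, 16, 17, 18, 19, 20, 21, 22, 23],
    ![2, 1, 0, 5, 4, 3, 10, 11, 12, 13, 6, 7, 8, 9, 19, 20, 21, 22, 23, 14, 15, 16, 17, 18],
    ![3, 4, 5, 0, 1, 2, 9, 8, 7, 6, 13, 12, 11, 10, 23, 22, 21, 20, 19, 18, 17, 16, 15, 14],
    ![5, 4, 3, 2, 1, 0, 13, 12, 11, 10, 9, 8, 7, 6, 18, 17, 16, 15, 14, 23, 22, 21, 20, 19]]

/-- the four automorphisms, on paths -/
def autP : Fin 4 → Fin 6 → Fin 6 :=
  ![![0, 1, 2, 3, 4, 5], ![0, 1, 3, 2, 5, 4], ![1, 0, 2, 3, 5, 4], ![1, 0, 3, 2, 4, 5]]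

/-- the function on faces with value `a` left of the path `i`, `b` right of it, else 0 -/
def ind (i : Fin 6) (a b : ℕ) (f : Fin 4) : ℕ :=
  if f = lft i then a else if f = rgt i then b else 0

/-- the rank pattern of independent forms of ranks `a`, `b` on the two faces of the path `i` -/
def pat (i : Fin 6) (a b : ℕ) (p : Fin 6) : ℕ := ind i a b (lft p) + ind i a b (rgt p)

/-- rank patterns that vanish on the path opposite to `i` and are not one of the four main ones -/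
def Bad (i : Fin 6) (r : Fin 6 → ℕ) : Prop :=
  r (opp i) = 0 ∧ r ≠ pat i 0 0 ∧ r ≠ pat i 1 0 ∧ r ≠ pat i 0 1 ∧ r ≠ pat i 1 1

instance (i : Fin 6) (r : Fin 6 → ℕ) : Decidable (Bad i r) := by unfold Bad; infer_instance

section Geo

variable {D P : Type} [AddCommGroup D] [Fintype D] [AddCommGroup P] [Fintype P]

/-- the difference across the path `p` of a function on faces -/
def dif (Z : Fin 4 → D) (p : Fin 6) : D := Z (lft p) - Z (rgt p)

/-- the rank pattern of a function on faces -/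
def rks (rk : D → ℕ) (Z : Fin 4 → D) (p : Fin 6) : ℕ := rk (dif Z p)

/-- the absolute weight of a function on faces -/
def wt (rk : D → ℕ) (t : ℝ) (Z : Fin 4 → D) : ℝ := ∏ p, t ^ (len p * rks rk Z p)

/-- a perfect pairing of two finite abelian groups -/
structure IsPairing (χ : D → P → ℂ) : Prop where
  card_eq : Fintype.card D = Fintype.card P
  chi_add_left : ∀ a b y, χ (a + b) y = χ a y * χ b y
  chi_add_right : ∀ a y z, χ a (y + z) = χ a y * χ a z
  chi_zero_left : ∀ y, χ 0 y = 1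
  chi_zero_right : ∀ a, χ a 0 = 1
  orth : ∀ y, y ≠ 0 → ∑ a, χ a y = 0

/-- What is used of the host geometry: a pairing `χ` of two finite abelian groups, a rank
function, two kernels `g`, `s` and their Fourier transforms, and three counting bounds. -/
structure IsGeo (χ : D → P → ℂ) (rk : D → ℕ) (g s : P → ℝ) (γ : D → ℝ) (C c t : ℝ) : Prop where
  pairing : IsPairing χ
  rk_zero : ∀ a, rk a = 0 ↔ a = 0
  g_even : ∀ y, g (-y) = g y
  s_even : ∀ y, s (-y) = s y
  abs_s_le : ∀ y, |s y| ≤ g y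
  ft_one : ∀ a, ∑ y, χ a y = (Fintype.card P : ℂ) * ((γ a * if rk a = 0 then 1 else 0 : ℝ) : ℂ)
  ft_g : ∀ a, ∑ y, (g y : ℂ) * χ a y =
    (Fintype.card P : ℂ) * ((γ a * if Even (rk a) then 1 else 0 : ℝ) : ℂ)
  ft_s : ∀ a, ∑ y, (s y : ℂ) * χ a y =
    (Fintype.card P : ℂ) * ((γ a * if Even (rk a) then 0 else 1 : ℝ) : ℂ)
  gam_zero : γ 0 = 1
  t_nonneg : 0 ≤ t
  gam_abs : ∀ a, |γ a| ≤ t ^ rk a
  tot : ∑ Z : Fin 4 → D, wt rk t Z ≤ C * Fintype.card D
  bad : ∀ i, ∑ Z : Fin 4 → D with Bad i (rks rk Z), wt rk t Z ≤ C * t * Fintype.card D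
  pair_sign : ∀ i (Z : Fin 4 → D), rks rk Z = pat i 1 1 →
    ∏ p, γ (dif Z p) ^ len p = wt rk t Z
  pair : ∀ i, c * Fintype.card D ≤ ∑ Z : Fin 4 → D with rks rk Z = pat i 1 1, wt rk t Z

end Geo

end Vale.Agent.P050Z
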