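import Vale.Agent.P050Z.GeoDefs

/-! Fourier transforms of the rank one kernels. -/

namespace Vale.Agent.P050Z

open Finset Module

variable {F V : Type} [Field F] [Fintype F] [AddCommGroup V] [Module F V] [Fintype V]

namespace Gauss

theorem psi_prim : (psi F).IsPrimitive :=
  AddChar.FiniteField.primitiveChar_to_Complex_isPrimitive F

theorem psi_sum {ι : Type} (s : Finset ι) (f : ι → F) :
    psi F (∑ i ∈ s, f i) = ∏ i ∈ s, psi F (f i) := by
  classical
  induction s using Finset.induction_on with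
  | empty => simp
  | insert i s hi ih => rw [Finset.sum_insert hi, Finset.prod_insert hi, AddChar.map_add_eq_mul, ih]

/-- the sum of the character over a nonzero linear functional vanishes -/
theorem sum_psi_lin {W : Type} [AddCommGroup W] [Module F W] [Fintype W] (f : W → F)
    (hadd : ∀ x y, f (x + y) = f x + f y) (hsm : ∀ (c : F) x, f (c • x) = c * f x)
    {w : W} (hw : f w ≠ 0) : ∑ x, psi F (f x) = 0 := by
  have h1 : (psi F).mulShift (f w) ≠ 1 := psi_prim hw
  obtain ⟨c, hc⟩ : ∃ c, psi F (f w * c) ≠ 1 := by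
    by_contra h
    push Not at h
    exact h1 (AddChar.ext _ _ fun c => by simpa using h c)
  have h2 : ∑ x, psi F (f x) = ∑ x, psi F (f (c • w + x)) :=
    (Fintype.sum_equiv (Equiv.addLeft (c • w)) _ _ fun _ => rfl).symm
  have h3 : ∑ x, psi F (f (c • w + x)) = psi F (f w * c) * ∑ x, psi F (f x) := by
    rw [Finset.mul_sum]
    refine Finset.sum_congr rfl fun x _ => ?_
    rw [hadd, hsm, AddChar.map_add_eq_mul, mul_comm c]
  have h4 : (1 - psi F (f w * c)) * ∑ x, psi F (f x) = 0 := by
    linear_combination h2 + h3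
  rcases mul_eq_zero.1 h4 with h | h
  · exact absurd (sub_eq_zero.1 h).symm hc
  · exact h

/-- the Gauss sum of the form `d • B` -/
noncomputable def gs (d : F) (B : SB F V) : ℂ := ∑ u : V, psi F (d * B.1 u u)

theorem gam_eq (B : SB F V) : gam B = (gs 1 B).re / (Fintype.card V : ℝ) := by
  simp [gam, gs]

open Classical in
/-- the quadratic character with complex values -/
noncomputable def qc (F : Type) [Field F] [Fintype F] : MulChar F ℂ :=
  (quadraticChar F).ringHomComp (Int.castRingHom ℂ)

theorem qc_quad : (qc F).IsQuadratic := by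
  classical
  exact (quadraticChar_isQuadratic F).comp _

theorem qc_ne_one (h2 : ringChar F ≠ 2) : qc F ≠ 1 := by
  classical
  exact (MulChar.ringHomComp_ne_one_iff (RingHom.injective_int _)).2 (quadraticChar_ne_one h2)

theorem qc_square {a : F} (ha : a ≠ 0) (h : IsSquare a) : qc F a = 1 := by
  classical
  simp [qc, (quadraticChar_one_iff_isSquare ha).2 h]

theorem qc_nonsquare {a : F} (h : ¬ IsSquare a) : qc F a = -1 := by
  classical
  simp [qc, quadraticChar_neg_one_iff_not_isSquare.2 h]

theorem qc_real {a : F} (ha : a ≠ 0) : ∃ r : ℝ, r ^ 2 = 1 ∧ qc F a = r := by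
  by_cases h : IsSquare a
  · exact ⟨1, by norm_num, by simp [qc_square ha h]⟩
  · exact ⟨-1, by norm_num, by simp [qc_nonsquare h]⟩

/-- the one-dimensional sums -/
theorem sum_sq (h2 : ringChar F ≠ 2) {c : F} (hc : c ≠ 0) :
    ∑ x : F, psi F (c * x ^ 2) = qc F c * gaussSum (qc F) (psi F) := by
  classical
  have e1 : ∑ x : F, psi F (c * x ^ 2) = ∑ t : F, (qc F t + 1) * psi F (c * t) := by
    rw [← Finset.sum_fiberwise (s := univ) (g := fun x : F => x ^ 2)]
    refine Finset.sum_congr rfl fun t _ => ?_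
    have h1 : ∀ x ∈ univ.filter (fun x : F => x ^ 2 = t), psi F (c * x ^ 2) = psi F (c * t) := by
      intro x hx
      rw [(Finset.mem_filter.1 hx).2]
    rw [Finset.sum_congr rfl h1, Finset.sum_const, nsmul_eq_mul]
    congr 1
    have h3 := quadraticChar_card_sqrts h2 t
    have h4 : {x : F | x ^ 2 = t}.toFinset = univ.filter (fun x : F => x ^ 2 = t) := by
      ext x; simp
    rw [h4] at h3
    have h5 := congrArg (Int.cast : ℤ → ℂ) h3
    simpa [qc] using h5
  have e2 : ∑ t : F, psi F (c * t) = 0 := by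
    have := AddChar.sum_eq_zero_of_ne_one (psi_prim hc)
    simpa using this
  have e3 : ∑ t : F, qc F t * psi F (c * t) = qc F c * gaussSum (qc F) (psi F) := by
    have h := gaussSum_mulShift_eq (qc F) (psi F) (Units.mk0 c hc)
    rw [qc_quad.inv] at h
    simpa [gaussSum] using h
  rw [e1]
  simp only [add_mul, one_mul, Finset.sum_add_distrib, e2, e3, add_zero]

theorem gauss_real (h2 : ringChar F ≠ 2) (hi : IsSquare (-1 : F)) :
    ∃ g : ℝ, g ^ 2 = Fintype.card F ∧ gaussSum (qc F) (psi F) = g := by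
  have h := gaussSum_sq (qc_ne_one h2) qc_quad psi_prim
  rw [qc_square (neg_ne_zero.2 one_ne_zero) hi, one_mul] at h
  have hq : ((√(Fintype.card F : ℝ) : ℝ) : ℂ) ^ 2 = Fintype.card F := by
    rw [← Complex.ofReal_pow, Real.sq_sqrt (by positivity)]
    simp
  rw [← hq] at h
  rcases sq_eq_sq_iff_eq_or_eq_neg.1 h with h | h
  · exact ⟨√(Fintype.card F : ℝ), Real.sq_sqrt (by positivity), h⟩
  · exact ⟨-√(Fintype.card F : ℝ), by rw [neg_sq]; exact Real.sq_sqrt (by positivity),
      by rw [h]; simp⟩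

open Classical in
/-- diagonal form of a symmetric form -/
theorem exists_diag (h2 : ringChar F ≠ 2) (B : SB F V) :
    ∃ (a : Fin (finrank F V) → F) (e : (Fin (finrank F V) → F) ≃ V),
      (∀ x, B.1 (e x) (e x) = ∑ i, a i * x i ^ 2) ∧
      (univ.filter fun i => a i ≠ 0).card = rk B := by
  have : Invertible (2 : F) := invertibleOfNonzero (Ring.two_ne_zero h2)
  obtain ⟨v, hv⟩ := LinearMap.BilinForm.exists_orthogonal_basis (B := B.1)
    ⟨fun x y => sb_symm B x y⟩
  have hv' : ∀ i j, i ≠ j → B.1 (v i) (v j) = 0 := LinearMap.isOrthoᵢ_def.1 hv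
  set a : Fin (finrank F V) → F := fun i => B.1 (v i) (v i) with ha
  have hx : ∀ (x : Fin (finrank F V) → F) j, B.1 (v.equivFun.symm x) (v j) = a j * x j := by
    intro x j
    rw [Basis.equivFun_symm_apply, map_sum, LinearMap.sum_apply, Finset.sum_eq_single j]
    · simp [ha, mul_comm]
    · intro i _ hij
      simp [hv' i j hij]
    · simp
  refine ⟨a, v.equivFun.symm.toEquiv, fun x => ?_, ?_⟩
  · have : B.1 (v.equivFun.symm x) (∑ j, x j • v j) = ∑ i, a i * x i ^ 2 := by
      rw [map_sum]
      refine Finset.sum_congr rfl fun j _ => ?_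
      rw [map_smul, hx, smul_eq_mul]
      ring
    rw [← this, ← Basis.equivFun_symm_apply]
    rfl
  · have h1 : (kr B : Set V) = v.equivFun.symm ''
        (Fintype.piFinset fun i => if a i = 0 then (univ : Finset F) else {0}) := by
      ext u
      obtain ⟨x, rfl⟩ := v.equivFun.symm.surjective u
      rw [v.equivFun.symm.injective.mem_set_image, SetLike.mem_coe, mem_kr, Finset.mem_coe,
        Fintype.mem_piFinset]
      constructor
      · intro h i
        have := h (v i)
        rw [hx] at this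
        split_ifs with h0
        · exact mem_univ _
        · simpa [h0] using this
      · intro h w
        have h3 : B.1 (v.equivFun.symm x) = 0 := by
          refine v.ext fun j => ?_
          rw [hx]
          have := h j
          split_ifs at this with h0
          · simp [h0]
          · simp [Finset.mem_singleton.1 this]
        rw [h3]
        rfl
    have h3 := ncard_submodule (kr B)
    rw [h1, Set.ncard_image_of_injective _ v.equivFun.symm.injective, Set.ncard_coe_finset,
      Fintype.card_piFinset] at h3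
    have h4 : ∏ i, (if a i = 0 then (univ : Finset F) else {0}).card =
        Fintype.card F ^ (univ.filter fun i => a i = 0).card := by
      rw [← Finset.prod_const, Finset.prod_filter]
      refine Finset.prod_congr rfl fun i _ => ?_
      split_ifs <;> simp
    rw [h4] at h3
    have h5 := Nat.pow_right_injective (Fintype.one_lt_card (α := F)) h3
    have h6 := Finset.card_filter_add_card_filter_not (s := (univ : Finset (Fin (finrank F V))))
      (fun i => a i = 0)
    have h7 := rk_add B
    simp only [card_univ, Fintype.card_fin] at h6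
    simp only [ne_eq]
    omega

/-- the value of the Gauss sums of a form -/
theorem gs_key (h2 : ringChar F ≠ 2) (hi : IsSquare (-1 : F)) (B : SB F V) :
    ∃ s : ℝ, s ^ 2 * (Fintype.card F : ℝ) ^ rk B = (Fintype.card V : ℝ) ^ 2 ∧
      ∀ d : F, d ≠ 0 → gs d B = qc F d ^ rk B * s := by
  classical
  obtain ⟨a, e, hB, hr⟩ := exists_diag h2 B
  obtain ⟨g, hg, hG⟩ := gauss_real h2 hi
  have hc : ∀ i, ∃ r : ℝ, (r ^ 2 * (if a i ≠ 0 then (Fintype.card F : ℝ) else 1) =
      (Fintype.card F : ℝ) ^ 2) ∧ ∀ d : F, d ≠ 0 →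
      ∑ x : F, psi F (d * (a i * x ^ 2)) = (if a i ≠ 0 then qc F d else 1) * r := by
    intro i
    by_cases h0 : a i = 0
    · refine ⟨Fintype.card F, by simp [h0], fun d _ => by simp [h0]⟩
    · obtain ⟨r, hr1, hr2⟩ := qc_real h0
      refine ⟨r * g, ?_, fun d hd => ?_⟩
      · rw [if_pos h0, mul_pow, hr1, hg]
        ring
      · have := sum_sq h2 (mul_ne_zero hd h0)
        simp only [mul_assoc] at this
        rw [this, if_pos h0, map_mul, hr2, hG]
        push_cast
        ring
  choose r hr1 hr2 using hc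
  refine ⟨∏ i, r i, ?_, fun d hd => ?_⟩
  · have h1 := Finset.prod_congr (s₁ := univ) rfl fun i _ => hr1 i
    rw [Finset.prod_mul_distrib, Finset.prod_pow, ← Finset.prod_filter, Finset.prod_const, hr,
      Finset.prod_const, card_univ, Fintype.card_fin] at h1
    rw [h1, Module.card_eq_pow_finrank (K := F) (V := V)]
    push_cast
    ring
  · have h1 : gs d B = ∑ x : Fin (finrank F V) → F, ∏ i, psi F (d * (a i * x i ^ 2)) := by
      rw [gs, ← e.sum_comp]
      refine Finset.sum_congr rfl fun x _ => ?_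
      rw [hB, Finset.mul_sum, psi_sum]
    rw [h1, ← Fintype.piFinset_univ, ← Finset.prod_univ_sum (fun _ => univ)
      (fun i (x : F) => psi F (d * (a i * x ^ 2))), Finset.prod_congr rfl fun i _ => hr2 i d hd,
      Finset.prod_mul_distrib, ← Finset.prod_filter, Finset.prod_const, hr]
    push_cast
    rfl

theorem gs_one (h2 : ringChar F ≠ 2) (hi : IsSquare (-1 : F)) (B : SB F V) :
    gs 1 B = (Fintype.card V : ℂ) * gam B := by
  obtain ⟨s, -, hs⟩ := gs_key h2 hi B
  have h1 := hs 1 one_ne_zero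
  rw [map_one, one_pow, one_mul] at h1
  have hV : (Fintype.card V : ℂ) ≠ 0 := by exact_mod_cast Fintype.card_ne_zero
  rw [gam_eq, h1]
  push_cast
  rw [Complex.ofReal_re]
  field_simp

theorem gs_nu (h2 : ringChar F ≠ 2) (hi : IsSquare (-1 : F)) {ν : F} (hν : ¬ IsSquare ν)
    (B : SB F V) : gs ν B = (-1) ^ rk B * gs 1 B := by
  obtain ⟨s, -, hs⟩ := gs_key h2 hi B
  have h0 : ν ≠ 0 := by
    rintro rfl
    exact hν IsSquare.zero
  rw [hs 1 one_ne_zero, hs ν h0, qc_nonsquare hν, map_one, one_pow, one_mul]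

theorem ft_gk (d : F) (a : SB F V) : ∑ y, (gk d y : ℂ) * chi a y =
    (Fintype.card (Module.Dual F (SB F V)) : ℂ) / (Fintype.card V : ℂ) * gs d a := by
  classical
  rw [gs, ← Finset.sum_fiberwise (s := univ) (g := fun u : V => d • ev (F := F) u),
    Finset.mul_sum]
  refine Finset.sum_congr rfl fun y _ => ?_
  have h1 : ∀ u ∈ univ.filter (fun u : V => d • ev (F := F) u = y),
      psi F (d * a.1 u u) = chi a y := by
    intro u hu
    rw [← (Finset.mem_filter.1 hu).2]
    rfl
  rw [Finset.sum_congr rfl h1, Finset.sum_const, nsmul_eq_mul, gk]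
  have h2 : {u : V | d • ev u = y}.ncard = (univ.filter fun u : V => d • ev (F := F) u = y).card := by
    rw [← Set.ncard_coe_finset]
    congr 1
    ext u
    simp
  rw [h2]
  push_cast
  ring

theorem gk_nonneg (d : F) (y : Module.Dual F (SB F V)) : 0 ≤ gk d y := by
  unfold gk
  positivity

end Gauss

open Gauss

theorem chi_pairing : IsPairing (chi (F := F) (V := V)) where
  card_eq := by
    rw [Module.card_eq_pow_finrank (K := F) (V := SB F V),
      Module.card_eq_pow_finrank (K := F) (V := Module.Dual F (SB F V)),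
      Subspace.dual_finrank_eq]
  chi_add_left a b y := by
    rw [chi, chi, chi, map_add, AddChar.map_add_eq_mul]
  chi_add_right a y z := by
    rw [chi, chi, chi, LinearMap.add_apply, AddChar.map_add_eq_mul]
  chi_zero_left y := by
    rw [chi, map_zero, AddChar.map_zero_eq_one]
  chi_zero_right a := by
    rw [chi, LinearMap.zero_apply, AddChar.map_zero_eq_one]
  orth y hy := by
    obtain ⟨w, hw⟩ : ∃ w, y w ≠ 0 := by
      by_contra h
      push Not at h
      exact hy (LinearMap.ext h)
    exact sum_psi_lin (fun a => y a) (fun a b => map_add y a b) (fun c a => map_smul y c a) hw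

theorem gk_neg (hi : IsSquare (-1 : F)) (d : F) (y : Module.Dual F (SB F V)) :
    gk d (-y) = gk d y := by
  obtain ⟨i, hi⟩ := hi
  have hi0 : i ≠ 0 := by
    rintro rfl
    simp at hi
  have h1 : ∀ u : V, d • ev (F := F) (i • u) = -(d • ev (F := F) u) := by
    intro u
    refine LinearMap.ext fun B => ?_
    change d * B.1 (i • u) (i • u) = -(d * B.1 u u)
    simp only [map_smul, LinearMap.smul_apply, smul_eq_mul]
    linear_combination (-(d * B.1 u u)) * hi
  have h2 : {u : V | d • ev (F := F) u = -y} = (fun u : V => i • u) '' {u : V | d • ev u = y} := by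
    ext u
    constructor
    · intro hu
      refine ⟨i⁻¹ • u, ?_, by simp [smul_smul, hi0]⟩
      have h3 := h1 (i⁻¹ • u)
      rw [smul_smul, mul_inv_cancel₀ hi0, one_smul] at h3
      have h4 : d • ev (F := F) u = -y := hu
      rw [h4] at h3
      exact (neg_injective h3).symm
    · rintro ⟨w, hw, rfl⟩
      have h4 : d • ev (F := F) w = y := hw
      change d • ev (F := F) (i • w) = -y
      rw [h1, h4]
  rw [gk, gk, h2, Set.ncard_image_of_injective _ (smul_right_injective V hi0)]

theorem abs_gOdd_le (ν : F) (y : Module.Dual F (SB F V)) : |gOdd ν y| ≤ gEven ν y := by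
  have h1 := gk_nonneg 1 y
  have h2 := gk_nonneg ν y
  rw [gOdd, gEven, abs_le]
  constructor <;> linarith

theorem gam_zero : gam (0 : SB F V) = 1 := by
  have hV : (Fintype.card V : ℝ) ≠ 0 := by exact_mod_cast Fintype.card_ne_zero
  simp [gam]

theorem ft_one (a : SB F V) : ∑ y, chi a y =
    (Fintype.card (Module.Dual F (SB F V)) : ℂ) *
      ((gam a * if rk a = 0 then 1 else 0 : ℝ) : ℂ) := by
  by_cases ha : a = 0
  · subst ha
    rw [if_pos ((rk_eq_zero _).2 rfl), gam_zero]
    simp [chi]
  · rw [if_neg (fun h => ha ((rk_eq_zero _).1 h))]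
    obtain ⟨w, hw⟩ : ∃ w : Module.Dual F (SB F V), w a ≠ 0 := by
      by_contra h
      push Not at h
      exact ha ((Module.forall_dual_apply_eq_zero_iff F a).1 h)
    have := sum_psi_lin (F := F) (fun y : Module.Dual F (SB F V) => y a) (fun _ _ => rfl)
      (fun _ _ => rfl) hw
    simpa [chi] using this

theorem ft_gEven (h2 : ringChar F ≠ 2) (hi : IsSquare (-1 : F)) {ν : F} (hν : ¬ IsSquare ν)
    (a : SB F V) : ∑ y, (gEven ν y : ℂ) * chi a y =
    (Fintype.card (Module.Dual F (SB F V)) : ℂ) *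
      ((gam a * if Even (rk a) then 1 else 0 : ℝ) : ℂ) := by
  have hV : (Fintype.card V : ℂ) ≠ 0 := by exact_mod_cast Fintype.card_ne_zero
  have e : ∑ y, (gEven ν y : ℂ) * chi a y =
      ((∑ y, (gk 1 y : ℂ) * chi a y) + ∑ y, (gk ν y : ℂ) * chi a y) / 2 := by
    rw [← Finset.sum_add_distrib, Finset.sum_div]
    refine Finset.sum_congr rfl fun y _ => ?_
    rw [gEven]
    push_cast
    ring
  rw [e, ft_gk, ft_gk, gs_nu h2 hi hν, gs_one h2 hi]
  split_ifs with h
  · rw [h.neg_one_pow]
    push_cast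
    field_simp
    ring
  · rw [(Nat.not_even_iff_odd.1 h).neg_one_pow]
    push_cast
    ring

theorem ft_gOdd (h2 : ringChar F ≠ 2) (hi : IsSquare (-1 : F)) {ν : F} (hν : ¬ IsSquare ν)
    (a : SB F V) : ∑ y, (gOdd ν y : ℂ) * chi a y =
    (Fintype.card (Module.Dual F (SB F V)) : ℂ) *
      ((gam a * if Even (rk a) then 0 else 1 : ℝ) : ℂ) := by
  have hV : (Fintype.card V : ℂ) ≠ 0 := by exact_mod_cast Fintype.card_ne_zero
  have e : ∑ y, (gOdd ν y : ℂ) * chi a y =
      ((∑ y, (gk 1 y : ℂ) * chi a y) - ∑ y, (gk ν y : ℂ) * chi a y) / 2 := by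
    rw [← Finset.sum_sub_distrib, Finset.sum_div]
    refine Finset.sum_congr rfl fun y _ => ?_
    rw [gOdd]
    push_cast
    ring
  rw [e, ft_gk, ft_gk, gs_nu h2 hi hν, gs_one h2 hi]
  split_ifs with h
  · rw [h.neg_one_pow]
    push_cast
    ring
  · rw [(Nat.not_even_iff_odd.1 h).neg_one_pow]
    push_cast
    field_simp
    ring

theorem gam_sq (h2 : ringChar F ≠ 2) (hi : IsSquare (-1 : F)) (a : SB F V) :
    gam a ^ 2 = tq F ^ (2 * rk a) := by
  obtain ⟨s, hs1, hs⟩ := gs_key h2 hi a
  have h1 := hs 1 one_ne_zero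
  rw [map_one, one_pow, one_mul] at h1
  have hV : (Fintype.card V : ℝ) ≠ 0 := by exact_mod_cast Fintype.card_ne_zero
  have hF : (Fintype.card F : ℝ) ≠ 0 := by exact_mod_cast Fintype.card_ne_zero
  rw [gam_eq, h1, Complex.ofReal_re, pow_mul, tq, div_pow, div_pow 1, Real.sq_sqrt (by positivity),
    one_pow, div_pow, one_pow, div_eq_div_iff (by positivity) (by positivity), hs1, one_mul]

theorem Gauss.tq_nonneg : 0 ≤ tq F := by
  unfold tq
  positivity

theorem gam_abs (h2 : ringChar F ≠ 2) (hi : IsSquare (-1 : F)) (a : SB F V) :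
    |gam a| ≤ tq F ^ rk a := by
  have h := gam_sq h2 hi a
  rw [mul_comm, pow_mul] at h
  exact abs_le_of_sq_le_sq' h.le (pow_nonneg tq_nonneg _) |> abs_le.2

theorem gam_neg (a : SB F V) : gam (-a) = gam a := by
  unfold gam
  congr 1
  rw [← Complex.conj_re, map_sum]
  congr 1
  refine Finset.sum_congr rfl fun u _ => ?_
  rw [sb_neg_apply, AddChar.map_neg_eq_conj, Complex.conj_conj]

theorem gam_sub (h2 : ringChar F ≠ 2) (hi : IsSquare (-1 : F)) (a b : SB F V)
    (h : rk (a - b) = rk a + rk b) : gam (a - b) = gam a * gam b := by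
  have htop : kr a ⊔ kr b = ⊤ := by
    apply Submodule.eq_top_of_finrank_eq
    have a1 := rk_add a
    have a2 := rk_add b
    have a3 := rk_add (a - b)
    have b1 : finrank F ↥(kr a ⊓ kr b) ≤ finrank F (kr (a - b)) := by
      rw [← inf_kr_sub]
      exact Submodule.finrank_mono inf_le_right
    have c1 := Submodule.finrank_sup_add_finrank_inf_eq (kr a) (kr b)
    have c2 := Submodule.finrank_le (kr a ⊔ kr b)
    omega
  have inner : ∀ w : V, ∑ u : V, psi F (a.1 u u) * psi F (-b.1 (u + w) (u + w)) =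
      gs 1 (a - b) := by
    intro w
    obtain ⟨k, hk, k', hk', rfl⟩ := Submodule.mem_sup.1 (htop ▸ Submodule.mem_top :
      w ∈ kr a ⊔ kr b)
    rw [gs, ← Equiv.sum_comp (Equiv.addRight k) (fun u => psi F (1 * (a - b).1 u u))]
    refine Finset.sum_congr rfl fun u _ => ?_
    have a1 := mem_kr.1 hk
    have b1 := mem_kr.1 hk'
    have e1 : a.1 (u + k) (u + k) = a.1 u u := by
      simp only [map_add, LinearMap.add_apply, a1, sb_symm a u k, add_zero]
    have e2 : b.1 (u + (k + k')) (u + (k + k')) = b.1 (u + k) (u + k) := by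
      rw [← add_assoc]
      generalize u + k = z
      simp only [map_add, LinearMap.add_apply, b1, sb_symm b z k', add_zero]
    rw [← AddChar.map_add_eq_mul, Equiv.coe_addRight, one_mul, sb_sub_apply, e1, e2,
      sub_eq_add_neg]
  have main : gs 1 a * gs 1 (-b) = (Fintype.card V : ℂ) * gs 1 (a - b) := by
    have e1 : gs 1 a * gs 1 (-b) =
        ∑ u : V, ∑ w : V, psi F (a.1 u u) * psi F (-b.1 (u + w) (u + w)) := by
      rw [gs, Finset.sum_mul]
      refine Finset.sum_congr rfl fun u _ => ?_
      rw [one_mul, ← Finset.mul_sum, gs, ← Equiv.sum_comp (Equiv.addLeft u)]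
      simp only [one_mul, sb_neg_apply, Equiv.coe_addLeft]
    rw [e1, Finset.sum_comm, Finset.sum_congr rfl fun w _ => inner w, Finset.sum_const,
      card_univ, nsmul_eq_mul]
  rw [gs_one h2 hi, gs_one h2 hi, gs_one h2 hi, gam_neg] at main
  have hV : (Fintype.card V : ℂ) ≠ 0 := by exact_mod_cast Fintype.card_ne_zero
  have : ((gam (a - b) : ℝ) : ℂ) = gam a * gam b := by
    apply mul_left_cancel₀ (mul_ne_zero hV hV)
    linear_combination -main
  exact_mod_cast this

theorem pair_sign (h2 : ringChar F ≠ 2) (hi : IsSquare (-1 : F)) (i : Fin 6)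
    (Z : Fin 4 → SB F V) (h : rks rk Z = pat i 1 1) :
    ∏ p, gam (dif Z p) ^ len p = wt rk (tq F) Z := by
  have hp : ∀ p, rk (Z (lft p) - Z (rgt p)) = ind i 1 1 (lft p) + ind i 1 1 (rgt p) :=
    fun p => congrFun h p
  have h0 : ind i 1 1 (lft (opp i)) = 0 :=
    (by decide : ∀ j : Fin 6, ind j 1 1 (lft (opp j)) = 0) i
  have hf : ∀ f, rk (Z f - Z (lft (opp i))) = ind i 1 1 f := by
    intro f
    have hc : ∀ (j : Fin 6) (f : Fin 4), f = lft (opp j) ∨ ∃ p, (lft p = f ∧ rgt p = lft (opp j)) ∨
        (rgt p = f ∧ lft p = lft (opp j)) := by decide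
    rcases hc i f with rfl | ⟨p, ⟨h1, h3⟩ | ⟨h1, h3⟩⟩
    · rw [sub_self, h0]
      exact (rk_eq_zero _).2 rfl
    · have := hp p
      rw [h1, h3, h0, add_zero] at this
      exact this
    · have := hp p
      rw [h1, h3, h0, zero_add, rk_sub_comm] at this
      exact this
  set c : Fin 4 → ℝ := fun f => gam (Z f - Z (lft (opp i))) with hc
  have hg : ∀ p, gam (dif Z p) = c (lft p) * c (rgt p) := by
    intro p
    have e : dif Z p = (Z (lft p) - Z (lft (opp i))) - (Z (rgt p) - Z (lft (opp i))) := by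
      rw [dif]; abel
    rw [e]
    apply gam_sub h2 hi
    rw [← e, hf, hf]
    exact hp p
  have hs : ∀ f, c f ^ 2 = (tq F ^ ind i 1 1 f) ^ 2 := by
    intro f
    rw [hc]
    simp only
    rw [gam_sq h2 hi, hf, mul_comm, pow_mul]
  have e1 : ∀ x : Fin 4 → ℝ, ∏ p, (x (lft p) * x (rgt p)) ^ len p = ∏ f, (x f ^ 2) ^ 6 := by
    intro x
    simp only [Fin.prod_univ_succ, Fin.prod_univ_zero, lft, rgt, len, Matrix.cons_val_zero,
      Matrix.cons_val_succ]
    change _ = (x 0 ^ 2) ^ 6 * ((x 1 ^ 2) ^ 6 * ((x 2 ^ 2) ^ 6 * ((x 3 ^ 2) ^ 6 * 1)))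
    ring
  rw [Finset.prod_congr rfl fun p _ => by rw [hg p], e1, Finset.prod_congr rfl fun f _ => by
    rw [hs f], ← e1 fun f => tq F ^ ind i 1 1 f, wt]
  refine Finset.prod_congr rfl fun p _ => ?_
  rw [h, pat, ← pow_add, ← pow_mul, mul_comm]

end Vale.Agent.P050Z
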