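import Vale.Agent.P050Z.Count4
import Vale.Agent.P050Z.Gauss
import Mathlib.NumberTheory.PrimesCongruentOne
import Mathlib.NumberTheory.LegendreSymbol.Basic

/-! The host geometry exists with arbitrarily small parameter. -/

namespace Vale.Agent.P050Z

open Finset Module

theorem isGeo {F : Type} [Field F] [Fintype F] (h2 : ringChar F ≠ 2) (hi : IsSquare (-1 : F))
    {ν : F} (hν : ¬ IsSquare ν) :
    IsGeo (chi (F := F) (V := Fin 6 → F)) rk (gEven ν) (gOdd ν) gam (7 ^ 6 * 2 ^ 63) (1 / 8)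
      (tq F) where
  pairing := chi_pairing
  rk_zero := rk_eq_zero
  g_even y := by unfold gEven; rw [gk_neg hi, gk_neg hi]
  s_even y := by unfold gOdd; rw [gk_neg hi, gk_neg hi]
  abs_s_le := abs_gOdd_le ν
  ft_one := ft_one
  ft_g := ft_gEven h2 hi hν
  ft_s := ft_gOdd h2 hi hν
  gam_zero := gam_zero
  t_nonneg := tq_pos.le
  gam_abs := gam_abs h2 hi
  tot := sum_tot (by simp)
  bad := sum_bad (by simp)
  pair_sign := pair_sign h2 hi
  pair := sum_pair

theorem exists_geo (δ : ℝ) (hδ : 0 < δ) : ∃ (D P : Type) (_ : AddCommGroup D) (_ : Fintype D)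
    (_ : AddCommGroup P) (_ : Fintype P) (χ : D → P → ℂ) (rk : D → ℕ) (g s : P → ℝ)
    (γ : D → ℝ) (t : ℝ), t ≤ δ ∧ IsGeo χ rk g s γ (7 ^ 6 * 2 ^ 63) (1 / 8) t := by
  obtain ⟨n, hn⟩ := exists_nat_gt (1 / δ ^ 2)
  obtain ⟨p, hp, hnp, hp4⟩ := Nat.exists_prime_gt_modEq_one (k := 4) n (by norm_num)
  have : Fact p.Prime := ⟨hp⟩
  have hp4' : p % 4 = 1 := hp4
  have h2 : ringChar (ZMod p) ≠ 2 := by
    rw [ZMod.ringChar_zmod_n]
    omega
  have hi : IsSquare (-1 : ZMod p) := ZMod.exists_sq_eq_neg_one_iff.2 (by omega)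
  obtain ⟨ν, hν⟩ := FiniteField.exists_nonsquare h2
  refine ⟨_, _, _, _, _, _, _, _, _, _, _, _, ?_, isGeo h2 hi hν⟩
  have h1 := tq_sq (F := ZMod p)
  have h3 := tq_pos (F := ZMod p)
  rw [ZMod.card] at h1
  have h4 : (n : ℝ) < p := by exact_mod_cast hnp
  have h5 : 1 < p * δ ^ 2 := by
    have := hn.trans h4
    rwa [div_lt_iff₀ (by positivity)] at this
  by_contra h
  push Not at h
  have h6 : δ ^ 2 < tq (ZMod p) ^ 2 := by gcongr
  have h7 : (0 : ℝ) < p := by exact_mod_cast hp.pos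
  nlinarith

end Vale.Agent.P050Z
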