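import Vale.Agent.P050Z.Defs

/-! Rigidity: the homomorphisms of least cost are the four automorphisms. -/

namespace Vale.Agent.P050Z

open Finset

theorem edgeIdx_symm : ∀ u v, edgeIdx u v = edgeIdx v u := by decide +kernel

theorem edgeIdx_aut : ∀ a e, edgeIdx (autV a (src e)) (autV a (tgt e)) = some (autE a e) := by
  decide +kernel

theorem pth_autE : ∀ a e, pth (autE a e) = autP a (pth e) := by decide +kernel

theorem cost_aut : ∀ a, ∑ v, vcost (autV a v) + ∑ e, ecost (autE a e) = 1010 := by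
  decide +kernel

theorem autE_bijective : ∀ a, Function.Bijective (autE a) := by decide +kernel

/-- indicator of the branch vertices -/
def bet (u : Fin 22) : ℕ := if u.val < 4 then 1 else 0

/-- adjacency as a boolean -/
def adjb (u v : Fin 22) : Bool := (edgeIdx u v).isSome

/-- indicator of the two middle edges -/
def midc (u v : Fin 22) : ℕ := if edgeIdx u v = some 16 ∨ edgeIdx u v = some 21 then 1 else 0

theorem ecost_eq : ∀ u v, ∀ k ∈ edgeIdx u v, ecost k + 46 * (bet u + bet v) + midc u v = 46 := by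
  decide +kernel

theorem vcost_eq : ∀ u, vcost u = 115 * bet u := by decide +kernel

theorem bet_le : ∀ u, bet u ≤ 1 := by decide +kernel

theorem midc_le (u v : Fin 22) : midc u v ≤ 1 := by
  unfold midc
  split_ifs <;> omega

theorem exists_aut : ∀ u, bet u = 1 → ∃ a, u = autV a 0 := by decide +kernel

set_option synthInstance.maxSize 4096 in
theorem mid_three : ∀ x0, bet x0 = 1 → ∀ x1, adjb x0 x1 = true → bet x1 = 0 →
    ∀ x2, adjb x1 x2 = true → bet x2 = 0 → ∀ x3, adjb x2 x3 = true → bet x3 = 1 →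
      midc x0 x1 + midc x1 x2 + midc x2 x3 = 0 := by decide +kernel

set_option synthInstance.maxSize 4096 in
theorem mid_four : ∀ x0, bet x0 = 1 → ∀ x1, adjb x0 x1 = true → bet x1 = 0 →
    ∀ x2, adjb x1 x2 = true → bet x2 = 0 → ∀ x3, adjb x2 x3 = true → bet x3 = 0 →
      ∀ x4, adjb x3 x4 = true → bet x4 = 1 →
      midc x0 x1 + midc x1 x2 + midc x2 x3 + midc x3 x4 = 0 := by decide +kernel

set_option synthInstance.maxSize 4096 in
theorem mid_five : ∀ x0, bet x0 = 1 → ∀ x1, adjb x0 x1 = true → bet x1 = 0 →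
    ∀ x2, adjb x1 x2 = true → bet x2 = 0 → ∀ x3, adjb x2 x3 = true → bet x3 = 0 →
      ∀ x4, adjb x3 x4 = true → bet x4 = 0 → ∀ x5, adjb x4 x5 = true → bet x5 = 1 →
      midc x0 x1 + midc x1 x2 + midc x2 x3 + midc x3 x4 + midc x4 x5 ≤ 1 := by decide +kernel

set_option synthInstance.maxSize 4096 in
theorem path_zero : ∀ a x1, adjb (autV a 0) x1 = true → bet x1 = 0 →
    ∀ x2, adjb x1 x2 = true → bet x2 = 0 → ∀ x3, adjb x2 x3 = true → bet x3 = 1 →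
      x1 = autV a 4 ∧ x2 = autV a 5 ∧ x3 = autV a 1 := by decide +kernel

set_option synthInstance.maxSize 4096 in
theorem path_one : ∀ a x1, adjb (autV a 2) x1 = true → bet x1 = 0 →
    ∀ x2, adjb x1 x2 = true → bet x2 = 0 → ∀ x3, adjb x2 x3 = true → bet x3 = 1 →
      x1 = autV a 6 ∧ x2 = autV a 7 := by decide +kernel

set_option synthInstance.maxSize 4096 in
theorem path_two : ∀ a x1, adjb (autV a 0) x1 = true → bet x1 = 0 →
    ∀ x2, adjb x1 x2 = true → bet x2 = 0 → ∀ x3, adjb x2 x3 = true → bet x3 = 0 →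
      adjb x3 (autV a 2) = true → x1 = autV a 8 ∧ x2 = autV a 9 ∧ x3 = autV a 10 := by
  decide +kernel

set_option synthInstance.maxSize 4096 in
theorem path_three : ∀ a x1, adjb (autV a 1) x1 = true → bet x1 = 0 →
    ∀ x2, adjb x1 x2 = true → bet x2 = 0 → ∀ x3, adjb x2 x3 = true → bet x3 = 0 →
      adjb x3 (autV a 3) = true → x1 = autV a 11 ∧ x2 = autV a 12 ∧ x3 = autV a 13 := by
  decide +kernel

set_option synthInstance.maxSize 4096 in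
theorem path_four : ∀ a x1, adjb (autV a 0) x1 = true → bet x1 = 0 →
    ∀ x2, adjb x1 x2 = true → bet x2 = 0 → ∀ x3, adjb x2 x3 = true → bet x3 = 0 →
      ∀ x4, adjb x3 x4 = true → bet x4 = 0 → ∀ x5, adjb x4 x5 = true → bet x5 = 1 →
      1 ≤ midc (autV a 0) x1 + midc x1 x2 + midc x2 x3 + midc x3 x4 + midc x4 x5 →
      x1 = autV a 14 ∧ x2 = autV a 15 ∧ x3 = autV a 16 ∧ x4 = autV a 17 ∧ x5 = autV a 3 := by
  decide +kernel

set_option synthInstance.maxSize 4096 in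
theorem path_five : ∀ a x1, adjb (autV a 1) x1 = true → bet x1 = 0 →
    ∀ x2, adjb x1 x2 = true → bet x2 = 0 → ∀ x3, adjb x2 x3 = true → bet x3 = 0 →
      ∀ x4, adjb x3 x4 = true → bet x4 = 0 → ∀ x5, adjb x4 x5 = true → bet x5 = 1 →
      1 ≤ midc (autV a 1) x1 + midc x1 x2 + midc x2 x3 + midc x3 x4 + midc x4 x5 →
      x1 = autV a 18 ∧ x2 = autV a 19 ∧ x3 = autV a 20 ∧ x4 = autV a 21 ∧ x5 = autV a 2 := by
  decide +kernel

theorem arith_aux (n b0 b1 b2 b3 M : ℕ) (h0 : b0 ≤ 1) (h1 : b1 ≤ 1) (h2 : b2 ≤ 1) (h3 : b3 ≤ 1)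
    (h : 23 * n + 94 ≤ 23 * (b0 + b1 + b2 + b3) + M) (hM : M ≤ 24) :
    n = 0 ∧ b0 = 1 ∧ b1 = 1 ∧ b2 = 1 ∧ b3 = 1 ∧ 2 ≤ M := by omega

theorem rigid (φ : Fin 22 → Fin 22) (κ : Fin 24 → Fin 24)
    (h : ∀ e, edgeIdx (φ (src e)) (φ (tgt e)) = some (κ e)) :
    (∃ a, φ = autV a) ∨ 1011 ≤ ∑ v, vcost (φ v) + ∑ e, ecost (κ e) := by
  by_contra hcon
  rw [not_or, not_le] at hcon
  obtain ⟨hna, hlt⟩ := hcon
  have hA : ∀ e, adjb (φ (src e)) (φ (tgt e)) = true := fun e => by simp [adjb, h e]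
  have hE : ∀ e, ecost (κ e) + 46 * (bet (φ (src e)) + bet (φ (tgt e))) +
      midc (φ (src e)) (φ (tgt e)) = 46 := fun e => ecost_eq _ _ _ (h e)
  have hM : ∀ e, midc (φ (src e)) (φ (tgt e)) ≤ 1 := fun e => midc_le _ _
  have hB : ∀ v, bet (φ v) ≤ 1 := fun v => bet_le _
  have hs1 : ∑ v, vcost (φ v) = 115 * (bet (φ 0) + bet (φ 1) + bet (φ 2) + bet (φ 3) + bet (φ 4) +
      bet (φ 5) + bet (φ 6) + bet (φ 7) + bet (φ 8) + bet (φ 9) + bet (φ 10) + bet (φ 11) +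
      bet (φ 12) + bet (φ 13) + bet (φ 14) + bet (φ 15) + bet (φ 16) + bet (φ 17) + bet (φ 18) +
      bet (φ 19) + bet (φ 20) + bet (φ 21)) := by
    simp only [vcost_eq, ← Finset.mul_sum, Fin.sum_univ_castSucc, Finset.univ_eq_empty,
      Finset.sum_empty, zero_add]
    rfl
  have hs2 : ∑ e, ecost (κ e) = ecost (κ 0) + ecost (κ 1) + ecost (κ 2) + ecost (κ 3) +
      ecost (κ 4) + ecost (κ 5) + ecost (κ 6) + ecost (κ 7) + ecost (κ 8) + ecost (κ 9) +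
      ecost (κ 10) + ecost (κ 11) + ecost (κ 12) + ecost (κ 13) + ecost (κ 14) + ecost (κ 15) +
      ecost (κ 16) + ecost (κ 17) + ecost (κ 18) + ecost (κ 19) + ecost (κ 20) + ecost (κ 21) +
      ecost (κ 22) + ecost (κ 23) := by
    simp only [Fin.sum_univ_castSucc, Finset.univ_eq_empty, Finset.sum_empty, zero_add]
    rfl
  rw [hs1, hs2] at hlt
  have a0 : adjb (φ 0) (φ 4) = true := hA 0
  have e0 : ecost (κ 0) + 46 * (bet (φ 0) + bet (φ 4)) + midc (φ 0) (φ 4) = 46 :=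
    hE 0
  have m0 : midc (φ 0) (φ 4) ≤ 1 := hM 0
  have a1 : adjb (φ 4) (φ 5) = true := hA 1
  have e1 : ecost (κ 1) + 46 * (bet (φ 4) + bet (φ 5)) + midc (φ 4) (φ 5) = 46 :=
    hE 1
  have m1 : midc (φ 4) (φ 5) ≤ 1 := hM 1
  have a2 : adjb (φ 5) (φ 1) = true := hA 2
  have e2 : ecost (κ 2) + 46 * (bet (φ 5) + bet (φ 1)) + midc (φ 5) (φ 1) = 46 :=
    hE 2
  have m2 : midc (φ 5) (φ 1) ≤ 1 := hM 2
  have a3 : adjb (φ 2) (φ 6) = true := hA 3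
  have e3 : ecost (κ 3) + 46 * (bet (φ 2) + bet (φ 6)) + midc (φ 2) (φ 6) = 46 :=
    hE 3
  have m3 : midc (φ 2) (φ 6) ≤ 1 := hM 3
  have a4 : adjb (φ 6) (φ 7) = true := hA 4
  have e4 : ecost (κ 4) + 46 * (bet (φ 6) + bet (φ 7)) + midc (φ 6) (φ 7) = 46 :=
    hE 4
  have m4 : midc (φ 6) (φ 7) ≤ 1 := hM 4
  have a5 : adjb (φ 7) (φ 3) = true := hA 5
  have e5 : ecost (κ 5) + 46 * (bet (φ 7) + bet (φ 3)) + midc (φ 7) (φ 3) = 46 :=
    hE 5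
  have m5 : midc (φ 7) (φ 3) ≤ 1 := hM 5
  have a6 : adjb (φ 0) (φ 8) = true := hA 6
  have e6 : ecost (κ 6) + 46 * (bet (φ 0) + bet (φ 8)) + midc (φ 0) (φ 8) = 46 :=
    hE 6
  have m6 : midc (φ 0) (φ 8) ≤ 1 := hM 6
  have a7 : adjb (φ 8) (φ 9) = true := hA 7
  have e7 : ecost (κ 7) + 46 * (bet (φ 8) + bet (φ 9)) + midc (φ 8) (φ 9) = 46 :=
    hE 7
  have m7 : midc (φ 8) (φ 9) ≤ 1 := hM 7
  have a8 : adjb (φ 9) (φ 10) = true := hA 8
  have e8 : ecost (κ 8) + 46 * (bet (φ 9) + bet (φ 10)) + midc (φ 9) (φ 10) = 46 :=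
    hE 8
  have m8 : midc (φ 9) (φ 10) ≤ 1 := hM 8
  have a9 : adjb (φ 10) (φ 2) = true := hA 9
  have e9 : ecost (κ 9) + 46 * (bet (φ 10) + bet (φ 2)) + midc (φ 10) (φ 2) = 46 :=
    hE 9
  have m9 : midc (φ 10) (φ 2) ≤ 1 := hM 9
  have a10 : adjb (φ 1) (φ 11) = true := hA 10
  have e10 : ecost (κ 10) + 46 * (bet (φ 1) + bet (φ 11)) + midc (φ 1) (φ 11) = 46 :=
    hE 10
  have m10 : midc (φ 1) (φ 11) ≤ 1 := hM 10
  have a11 : adjb (φ 11) (φ 12) = true := hA 11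
  have e11 : ecost (κ 11) + 46 * (bet (φ 11) + bet (φ 12)) + midc (φ 11) (φ 12) = 46 :=
    hE 11
  have m11 : midc (φ 11) (φ 12) ≤ 1 := hM 11
  have a12 : adjb (φ 12) (φ 13) = true := hA 12
  have e12 : ecost (κ 12) + 46 * (bet (φ 12) + bet (φ 13)) + midc (φ 12) (φ 13) = 46 :=
    hE 12
  have m12 : midc (φ 12) (φ 13) ≤ 1 := hM 12
  have a13 : adjb (φ 13) (φ 3) = true := hA 13
  have e13 : ecost (κ 13) + 46 * (bet (φ 13) + bet (φ 3)) + midc (φ 13) (φ 3) = 46 :=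
    hE 13
  have m13 : midc (φ 13) (φ 3) ≤ 1 := hM 13
  have a14 : adjb (φ 0) (φ 14) = true := hA 14
  have e14 : ecost (κ 14) + 46 * (bet (φ 0) + bet (φ 14)) + midc (φ 0) (φ 14) = 46 :=
    hE 14
  have m14 : midc (φ 0) (φ 14) ≤ 1 := hM 14
  have a15 : adjb (φ 14) (φ 15) = true := hA 15
  have e15 : ecost (κ 15) + 46 * (bet (φ 14) + bet (φ 15)) + midc (φ 14) (φ 15) = 46 :=
    hE 15
  have m15 : midc (φ 14) (φ 15) ≤ 1 := hM 15
  have a16 : adjb (φ 15) (φ 16) = true := hA 16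
  have e16 : ecost (κ 16) + 46 * (bet (φ 15) + bet (φ 16)) + midc (φ 15) (φ 16) = 46 :=
    hE 16
  have m16 : midc (φ 15) (φ 16) ≤ 1 := hM 16
  have a17 : adjb (φ 16) (φ 17) = true := hA 17
  have e17 : ecost (κ 17) + 46 * (bet (φ 16) + bet (φ 17)) + midc (φ 16) (φ 17) = 46 :=
    hE 17
  have m17 : midc (φ 16) (φ 17) ≤ 1 := hM 17
  have a18 : adjb (φ 17) (φ 3) = true := hA 18
  have e18 : ecost (κ 18) + 46 * (bet (φ 17) + bet (φ 3)) + midc (φ 17) (φ 3) = 46 :=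
    hE 18
  have m18 : midc (φ 17) (φ 3) ≤ 1 := hM 18
  have a19 : adjb (φ 1) (φ 18) = true := hA 19
  have e19 : ecost (κ 19) + 46 * (bet (φ 1) + bet (φ 18)) + midc (φ 1) (φ 18) = 46 :=
    hE 19
  have m19 : midc (φ 1) (φ 18) ≤ 1 := hM 19
  have a20 : adjb (φ 18) (φ 19) = true := hA 20
  have e20 : ecost (κ 20) + 46 * (bet (φ 18) + bet (φ 19)) + midc (φ 18) (φ 19) = 46 :=
    hE 20
  have m20 : midc (φ 18) (φ 19) ≤ 1 := hM 20
  have a21 : adjb (φ 19) (φ 20) = true := hA 21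
  have e21 : ecost (κ 21) + 46 * (bet (φ 19) + bet (φ 20)) + midc (φ 19) (φ 20) = 46 :=
    hE 21
  have m21 : midc (φ 19) (φ 20) ≤ 1 := hM 21
  have a22 : adjb (φ 20) (φ 21) = true := hA 22
  have e22 : ecost (κ 22) + 46 * (bet (φ 20) + bet (φ 21)) + midc (φ 20) (φ 21) = 46 :=
    hE 22
  have m22 : midc (φ 20) (φ 21) ≤ 1 := hM 22
  have a23 : adjb (φ 21) (φ 2) = true := hA 23
  have e23 : ecost (κ 23) + 46 * (bet (φ 21) + bet (φ 2)) + midc (φ 21) (φ 2) = 46 :=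
    hE 23
  have m23 : midc (φ 21) (φ 2) ≤ 1 := hM 23
  have c0 := hB 0
  have c1 := hB 1
  have c2 := hB 2
  have c3 := hB 3
  have hsum : 23 * (bet (φ 4) + bet (φ 5) + bet (φ 6) + bet (φ 7) + bet (φ 8) + bet (φ 9) + bet (φ 10) + bet (φ 11) + bet (φ 12) +
      bet (φ 13) + bet (φ 14) + bet (φ 15) + bet (φ 16) + bet (φ 17) + bet (φ 18) + bet (φ 19) + bet (φ 20) + bet (φ 21)) + 94 ≤
      23 * (bet (φ 0) + bet (φ 1) + bet (φ 2) + bet (φ 3)) +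
      ((midc (φ 0) (φ 4) + midc (φ 4) (φ 5) + midc (φ 5) (φ 1)) +
      (midc (φ 2) (φ 6) + midc (φ 6) (φ 7) + midc (φ 7) (φ 3)) +
      (midc (φ 0) (φ 8) + midc (φ 8) (φ 9) + midc (φ 9) (φ 10) + midc (φ 10) (φ 2)) +
      (midc (φ 1) (φ 11) + midc (φ 11) (φ 12) + midc (φ 12) (φ 13) + midc (φ 13) (φ 3)) +
      (midc (φ 0) (φ 14) + midc (φ 14) (φ 15) + midc (φ 15) (φ 16) + midc (φ 16) (φ 17) + midc (φ 17) (φ 3)) +
      (midc (φ 1) (φ 18) + midc (φ 18) (φ 19) + midc (φ 19) (φ 20) + midc (φ 20) (φ 21) + midc (φ 21) (φ 2))) := by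
    linarith only [hlt, e0, e1, e2, e3, e4, e5, e6, e7, e8, e9, e10, e11, e12, e13, e14, e15, e16, e17, e18, e19, e20, e21, e22, e23]
  have hM24 : (midc (φ 0) (φ 4) + midc (φ 4) (φ 5) + midc (φ 5) (φ 1)) +
      (midc (φ 2) (φ 6) + midc (φ 6) (φ 7) + midc (φ 7) (φ 3)) +
      (midc (φ 0) (φ 8) + midc (φ 8) (φ 9) + midc (φ 9) (φ 10) + midc (φ 10) (φ 2)) +
      (midc (φ 1) (φ 11) + midc (φ 11) (φ 12) + midc (φ 12) (φ 13) + midc (φ 13) (φ 3)) +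
      (midc (φ 0) (φ 14) + midc (φ 14) (φ 15) + midc (φ 15) (φ 16) + midc (φ 16) (φ 17) + midc (φ 17) (φ 3)) +
      (midc (φ 1) (φ 18) + midc (φ 18) (φ 19) + midc (φ 19) (φ 20) + midc (φ 20) (φ 21) + midc (φ 21) (φ 2)) ≤ 24 := by
    linarith only [m0, m1, m2, m3, m4, m5, m6, m7, m8, m9, m10, m11, m12, m13, m14, m15, m16, m17, m18, m19, m20, m21, m22, m23]
  obtain ⟨hn, b0, b1, b2, b3, hM2⟩ := arith_aux _ _ _ _ _ _ c0 c1 c2 c3 hsum hM24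
  simp only [Nat.add_eq_zero_iff, and_assoc] at hn
  obtain ⟨b4, b5, b6, b7, b8, b9, b10, b11, b12, b13, b14, b15, b16, b17, b18, b19, b20, b21⟩ := hn
  have t0 := mid_three _ b0 _ a0 b4 _ a1 b5 _ a2 b1
  have t1 := mid_three _ b2 _ a3 b6 _ a4 b7 _ a5 b3
  have t2 := mid_four _ b0 _ a6 b8 _ a7 b9 _ a8 b10 _ a9 b2
  have t3 := mid_four _ b1 _ a10 b11 _ a11 b12 _ a12 b13 _ a13 b3
  have t4 := mid_five _ b0 _ a14 b14 _ a15 b15 _ a16 b16 _ a17 b17 _ a18 b3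
  have t5 := mid_five _ b1 _ a19 b18 _ a20 b19 _ a21 b20 _ a22 b21 _ a23 b2
  have u4 : 1 ≤ midc (φ 0) (φ 14) + midc (φ 14) (φ 15) + midc (φ 15) (φ 16) + midc (φ 16) (φ 17) +
      midc (φ 17) (φ 3) := by linarith only [hM2, t0, t1, t2, t3, t5]
  have u5 : 1 ≤ midc (φ 1) (φ 18) + midc (φ 18) (φ 19) + midc (φ 19) (φ 20) + midc (φ 20) (φ 21) +
      midc (φ 21) (φ 2) := by linarith only [hM2, t0, t1, t2, t3, t4]
  obtain ⟨a, f0⟩ := exists_aut _ b0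
  obtain ⟨f4, f5, f1⟩ := path_zero a _ (f0 ▸ a0) b4 _ a1 b5 _ a2 b1
  obtain ⟨f14, f15, f16, f17, f3⟩ :=
    path_four a _ (f0 ▸ a14) b14 _ a15 b15 _ a16 b16 _ a17 b17 _ a18 b3 (f0 ▸ u4)
  obtain ⟨f18, f19, f20, f21, f2⟩ :=
    path_five a _ (f1 ▸ a19) b18 _ a20 b19 _ a21 b20 _ a22 b21 _ a23 b2 (f1 ▸ u5)
  obtain ⟨f6, f7⟩ := path_one a _ (f2 ▸ a3) b6 _ a4 b7 _ a5 b3
  obtain ⟨f8, f9, f10⟩ := path_two a _ (f0 ▸ a6) b8 _ a7 b9 _ a8 b10 (f2 ▸ a9)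
  obtain ⟨f11, f12, f13⟩ := path_three a _ (f1 ▸ a10) b11 _ a11 b12 _ a12 b13 (f3 ▸ a13)
  refine hna ⟨a, funext fun v => ?_⟩
  fin_cases v
  exacts [f0, f1, f2, f3, f4, f5, f6, f7, f8, f9, f10, f11, f12, f13, f14, f15, f16, f17, f18, f19,
    f20, f21]

end Vale.Agent.P050Z
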