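import Vale.Agent.P050Z.Defs
import Vale.Agent.P050Z.Count2

/-! The finite check of all rank patterns. -/

namespace Vale.Agent.P050Z

/-- a table: 0 if no codimension is feasible, else the largest exponent plus 1 -/
def mtab (s r r' : ℕ) : ℕ :=
  (1308716914693427169798481007907673092467888320568306028523131821907420237904450421890453061471678596032299289383214552628038055796801320444045184576650023908735704936841066193642735275157483217931027959961007714349086145872085282242718505115338109994908384269276844498836269935023591034740537469081075441499611676037938605204835476855224141541258100183720565550597904373591570630740897170497209349700975436876456617678302866608149383786416269666864802555480380307158132430395764614092833799461704155763413876165574657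
    >>> (5 * (49 * s + 7 * r + r'))) % 32

set_option synthInstance.maxSize 4000 in
theorem mtab_spec : ∀ s < 7, ∀ r < 7, ∀ r' < 7, ∀ d < 7, s ≤ d → r ≤ d → r' ≤ d → d ≤ r + r' →
    2 * d ≤ s + r + r' → triExp 6 6 s r r' d + 1 ≤ mtab s r r' := by
  decide +kernel

/-- the exponent for a base pair of rank `s` and two more points -/
def qexp (s a b c d : ℕ) : ℕ := (mtab 0 s s - 1) + (mtab s a b - 1) + (mtab s c d - 1)

/-- the best of the six exponents -/
def bexp (r0 r1 r2 r3 r4 r5 : ℕ) : ℕ :=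
  min (min (min (qexp r1 r3 r4 r5 r2) (qexp r3 r1 r4 r5 r0))
    (min (qexp r5 r1 r2 r3 r0) (qexp r4 r1 r3 r2 r0)))
    (min (qexp r2 r1 r5 r4 r0) (qexp r0 r3 r5 r4 r2))

/-- twice the exponent of the weight -/
def cost6 (r0 r1 r2 r3 r4 r5 : ℕ) : ℕ := 3 * (r0 + r1) + 4 * (r2 + r3) + 5 * (r4 + r5)

/-- what is checked for each pattern -/
def Chk (r0 r1 r2 r3 r4 r5 : ℕ) : Prop :=
  2 * bexp r0 r1 r2 r3 r4 r5 + 1 ≤ cost6 r0 r1 r2 r3 r4 r5 ∨
    (r0 = 2 ∧ r1 = 2 ∧ r2 = 2 ∧ r3 = 2 ∧ r4 = 2 ∧ r5 = 2) ∨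
    (2 * bexp r0 r1 r2 r3 r4 r5 ≤ cost6 r0 r1 r2 r3 r4 r5 ∧
      ∀ i, ¬ Bad i ![r0, r1, r2, r3, r4, r5])

instance (r0 r1 r2 r3 r4 r5 : ℕ) : Decidable (Chk r0 r1 r2 r3 r4 r5) := by
  unfold Chk; infer_instance

/-- the check for all values of the last rank -/
def Chk1 (r1 r2 r3 r4 r5 : ℕ) : Prop :=
  ∀ r0 < 7, mtab r3 r5 r0 ≠ 0 ∧ mtab r4 r2 r0 ≠ 0 → Chk r0 r1 r2 r3 r4 r5

instance (r1 r2 r3 r4 r5 : ℕ) : Decidable (Chk1 r1 r2 r3 r4 r5) := by
  unfold Chk1; infer_instance

/-- the check for all values of the last three ranks -/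
def Chk2 (r1 r3 r4 : ℕ) : Prop :=
  ∀ r5 < 7, ∀ r2 < 7, mtab r1 r5 r2 ≠ 0 → Chk1 r1 r2 r3 r4 r5

instance (r1 r3 r4 : ℕ) : Decidable (Chk2 r1 r3 r4) := by
  unfold Chk2; infer_instance

theorem table_check : ∀ r1 < 7, ∀ r3 < 7, ∀ r4 < 7, mtab r1 r3 r4 ≠ 0 → Chk2 r1 r3 r4 := by
  decide +kernel

end Vale.Agent.P050Z
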